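import Vale.Agent.P207.Q.RuelleB
import Vale.Agent.P207.BlkE1
import Vale.Agent.P207.BlkL

/-!
# P207, strict quarter pinching, block C2: the inequality of Ruelle

The entropy of an invariant measure is at most the integral of the exponential growth rate of the
Jacobian of the exponential maps.
-/

open scoped Manifold ContDiff ENNReal Topology
open Bundle MeasureTheory Set Filter

noncomputable section

namespace Vale.Agent.P207

open Vale.Agent.P255 (RMetric coefIn Gam Riem IsGeo Metric Npc ExpSys toMetric geo expg)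

namespace Q

variable {n : ℕ} {M : Type} [TopologicalSpace M] [ChartedSpace (EV n) M]
  [IsManifold 𝓘(ℝ, EV n) ∞ M] [CompactSpace M] [T2Space M]
  {g : RMetric (EV n) M} {φ : ℝ → UT g → UT g}

/-- a continuous function is uniformly continuous with respect to the closeness of orbits -/
theorem exists_near (hφ : IsGeoFlow g φ) (h : Npc (mt g)) {t : UT g → ℝ} (ht : Continuous t)
    {e : ℝ} (he : 0 < e) : ∃ κ > 0, ∀ p q : UT g,
      (∀ s ∈ Icc (0 : ℝ) 1, ∃ δ : Cl (φ s p).pt (φ s q).pt, (sys g h).len δ ≤ κ) →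
      |t p - t q| ≤ e := by
  have := compactSpace_UT g
  have := t2Space_UT g
  have := metrizableSpace_UT g
  let : MetricSpace (UT g) := TopologicalSpace.metrizableSpaceMetric (UT g)
  have huc := CompactSpace.uniformContinuous_of_continuous ht
  obtain ⟨δ, hδ, hδ2⟩ := Metric.uniformContinuous_iff.1 huc e he
  obtain ⟨κ, hκ, hnear⟩ := exists_dist_lt (sys g h) (f := fun t (p : UT g) => (φ t p).pt)
    (fun t => (continuous_pt g).comp (hφ.continuous.comp
      (by fun_prop : Continuous fun p : UT g => (t, p))))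
    (fun p q h' => eq_of_pt_eq hφ h h') hδ
  refine ⟨κ, hκ, fun p q hpq => ?_⟩
  have h1 := hδ2 (hnear p q hpq)
  rw [Real.dist_eq] at h1
  exact h1.le

/-- orbits with the same cell are close -/
theorem cellOf_ne (hφ : IsGeoFlow g φ) (h : Npc (mt g)) {κ : ℝ} (hκ : 0 < κ) {c : M → M}
    {τ : ∀ x, Cl (c x) x} (hτ : ∀ x, (sys g h).len (τ x) < κ / 8) {N : ℕ} {x y : UT g} {i : ℕ}
    (hi : i < N) (hne : ¬ ∀ s ∈ Icc (0 : ℝ) 1,
      ∃ δ : Cl (φ s (φ i x)).pt (φ s (φ i y)).pt, (sys g h).len δ ≤ κ) :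
    cellOf hφ h c τ N x ≠ cellOf hφ h c τ N y := by
  intro hxy
  apply hne
  intro s hs
  obtain ⟨α, β, hα, hβ, hαβ⟩ := cell_eq (sys g h) hxy
  have hα' : (sys g h).len α ≤ κ := by
    have h1 := hτ x.pt; have h2 := hτ y.pt; linarith
  have hβ' : (sys g h).len β ≤ κ := by
    have h1 := hτ (φ N x).pt; have h2 := hτ (φ N y).pt; linarith
  have h4 := dist_le_of_endpoints hφ h (Nat.cast_nonneg N) α β hα' hβ'
    (seg hφ h x N) (seg hφ h y N) (vec_seg hφ h x N) (vec_seg hφ h y N) hαβ
    (t := s + i) (by have := hs.1; positivity) (by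
      have h5 : (i : ℝ) + 1 ≤ N := by exact_mod_cast hi
      have := hs.2
      linarith)
  rw [hφ.add, hφ.add] at h4
  exact h4

variable [MeasurableSpace M] [BorelSpace M]

/-- the volume of the set of the endpoints near a cell -/
theorem measure_nb_le (hφ : IsGeoFlow g φ) (h : Npc (mt g)) {μ : Measure M}
    (hμ : IsRiemVol g μ) {η : ℝ} {c : M → M} {τ : ∀ x, Cl (c x) x} {N : ℕ} {x : UT g} {B : ℝ}
    (hB : 0 ≤ B) (hjac : ∀ v ∈ nearSet (sys g h) (cellOf hφ h c τ N x) η,
      jac g (c x.pt) v ≤ B)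
    (hfin : volume (nearSet (sys g h) (cellOf hφ h c τ N x) η) ≠ ⊤) :
    μ.real (C1.nb (sys g h) (c (φ N x).pt) η) ≤
      B * volume.real (nearSet (sys g h) (cellOf hφ h c τ N x) η) := by
  have hA : MeasurableSet (nearSet (sys g h) (cellOf hφ h c τ N x) η) :=
    (isOpen_nearSet _ _ _).measurableSet
  have h1 : ((1 : ℕ) : ℝ≥0∞) * μ (C1.nb (sys g h) (c (φ N x).pt) η) ≤
      ∫⁻ v in nearSet (sys g h) (cellOf hφ h c τ N x) η, ENNReal.ofReal (jac g (c x.pt) v) := by
    refine le_lintegral_jac h hμ (c x.pt) hA (C1.isOpen_nb _ _ _).measurableSet fun z hz => ?_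
    obtain ⟨v, hv, hvz⟩ := exists_mem_nearSet (sys g h) (ρ := cellOf hφ h c τ N x) hz
    rw [Nat.cast_one, Set.one_le_encard_iff_nonempty]
    exact ⟨v, hv, hvz⟩
  have h2 : ∫⁻ v in nearSet (sys g h) (cellOf hφ h c τ N x) η,
      ENNReal.ofReal (jac g (c x.pt) v) ≤
      ENNReal.ofReal B * volume (nearSet (sys g h) (cellOf hφ h c τ N x) η) := by
    rw [← setLIntegral_const]
    exact setLIntegral_mono measurable_const fun v hv => ENNReal.ofReal_le_ofReal (hjac v hv)
  rw [Nat.cast_one, one_mul] at h1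
  have h3 := ENNReal.toReal_mono (ENNReal.mul_ne_top ENNReal.ofReal_ne_top hfin) (h1.trans h2)
  rw [ENNReal.toReal_mul, ENNReal.toReal_ofReal hB] at h3
  exact h3

omit [MeasurableSpace M] [BorelSpace M] in
/-- the sets of the endpoints of different cells are disjoint -/
theorem sum_volume_le (h : Npc (mt g)) {η sy : ℝ} (hη : 2 * η ≤ sy)
    (hsy : ∀ (x : M) (α : Cl x x), (sys g h).len α < sy → α = Path.Homotopic.Quotient.refl x)
    {X : Type} (A : Finset X) (cell : X → Σ p : M × M, Cl p.1 p.2) (hinj : Set.InjOn cell A)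
    {p : M × M} (hp : ∀ x ∈ A, (cell x).1 = p) {R : ℝ}
    (hA : ∀ x ∈ A, ∀ v ∈ nearSet (sys g h) (cell x) η, nm g p.1 v < R) :
    ∑ x ∈ A, volume.real (nearSet (sys g h) (cell x) η) ≤
      volume.real {v : EV n | nm g p.1 v < R} := by
  have hBt : volume {v : EV n | nm g p.1 v < R} ≠ ⊤ := by
    have h1 := (C1.isCompact_nrm_le (sys g h) p.1 R).measure_lt_top (μ := volume)
    refine (lt_of_le_of_lt (measure_mono fun v hv => ?_) h1).ne
    have hv : nm g p.1 v < R := hv
    exact hv.le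
  have hsub : (⋃ x ∈ A, nearSet (sys g h) (cell x) η) ⊆ {v : EV n | nm g p.1 v < R} := by
    intro v hv
    simp only [mem_iUnion] at hv
    obtain ⟨x, hx, hv⟩ := hv
    exact hA x hx v hv
  have hd : Set.PairwiseDisjoint (A : Set X) fun x => nearSet (sys g h) (cell x) η := by
    intro x hx y hy hxy
    rw [Function.onFun, Set.disjoint_left]
    intro v hv hv'
    exact hxy (hinj hx hy (nearSet_eq (sys g h) hη hsy ((hp x hx).trans (hp y hy).symm) hv hv'))
  have hfin : ∀ x ∈ A, volume (nearSet (sys g h) (cell x) η) ≠ ⊤ := fun x hx =>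
    ne_top_of_le_ne_top hBt (measure_mono (hA x hx))
  rw [← measureReal_biUnion_finset hd (fun x _ => (isOpen_nearSet _ _ _).measurableSet) hfin]
  exact measureReal_mono hsub hBt

/-- the sum over a separated set -/
theorem sum_exp_neg_le (hn : 1 ≤ n) (hφ : IsGeoFlow g φ) (h : Npc (mt g)) {t : UT g → ℝ}
    (ht : Continuous t) {e : ℝ} (he : 0 < e) {C : ℝ} (hC : 0 ≤ C)
    (hj : ∀ (p : UT g) (r : ℝ), 0 ≤ r → jac g p.pt (r • (p.vec : EV n)) ≤
      C * dens0 g p.pt * Real.exp ((∫ s in (0 : ℝ)..r, t (φ s p)) + e * r))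
    {κ : ℝ} (hκ : 0 < κ) (hκ1 : κ ≤ 1)
    (hnear : ∀ p q : UT g, (∀ s ∈ Icc (0 : ℝ) 1, ∃ δ : Cl (φ s p).pt (φ s q).pt,
      (sys g h).len δ ≤ κ) → |t p - t q| ≤ e) :
    ∃ D : ℝ, ∀ (N : ℕ) (E : Finset (UT g)), 1 ≤ N → (∀ x ∈ E, ∀ y ∈ E, x ≠ y → ∃ i < N,
      ¬ ∀ s ∈ Icc (0 : ℝ) 1, ∃ δ : Cl (φ s (φ i x)).pt (φ s (φ i y)).pt,
        (sys g h).len δ ≤ κ) →
      ∑ x ∈ E, Real.exp (-((∫ s in (0 : ℝ)..N, t (φ s x)) + 3 * e * N)) ≤ D := by
  classical
  have := compactSpace_UT g
  set S := sys g h with hS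
  obtain ⟨T₀, hT₀⟩ : ∃ T₀, ∀ p, |t p| ≤ T₀ := by
    obtain ⟨B, hB⟩ := (isCompact_range ht).isBounded.exists_norm_le
    exact ⟨B, fun p => hB _ (mem_range_self p)⟩
  obtain ⟨μ, hμ⟩ := exists_riemVol g
  have hfin := hμ.isFiniteMeasure
  have hpos := hμ.isOpenPosMeasure
  obtain ⟨κ₀, hκ₀, hvol⟩ := volume_ball_nm (n := n) (M := M) hn
  obtain ⟨sy, hsy0, hsy⟩ := C1.exists_systole S
  have hκ8 : 0 < κ / 8 := by positivity
  obtain ⟨F, hF⟩ := C1.exists_centers S hκ8
  choose c hc τ hτ using hF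
  set η := min (κ / 8) (sy / 2) with hη
  have hη0 : 0 < η := lt_min hκ8 (half_pos hsy0)
  have hη1 : η ≤ κ / 8 := min_le_left _ _
  have hη2 : 2 * η ≤ sy := by
    have := min_le_right (κ / 8) (sy / 2)
    linarith
  -- the volume of the small balls about the centers
  have hc₀ : ∃ c₀ : ℝ, 0 < c₀ ∧ ∀ p ∈ F, c₀ ≤ μ.real (C1.nb S p η) := by
    have hp : ∀ p, 0 < μ.real (C1.nb S p η) := fun p => by
      have h1 := (C1.isOpen_nb S p η).measure_pos μ ⟨p, C1.mem_nb_self S p hη0⟩
      exact ENNReal.toReal_pos h1.ne' (measure_ne_top _ _)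
    rcases F.eq_empty_or_nonempty with hF0 | hF0
    · exact ⟨1, one_pos, fun p hp => by simp [hF0] at hp⟩
    · obtain ⟨p₀, -, hmin⟩ := F.exists_min_image (fun p => μ.real (C1.nb S p η)) hF0
      exact ⟨_, hp p₀, hmin⟩
  obtain ⟨c₀, hc₀, hcF⟩ := hc₀
  set D₀ : ℝ := C * Real.exp (3 * T₀ + e) / c₀ with hD₀
  have hD₀0 : 0 ≤ D₀ := by positivity
  refine ⟨(F.card : ℝ) ^ 2 * (D₀ * κ₀ * (n.factorial / e ^ n * Real.exp e)),
    fun N E hN hE => ?_⟩
  have hN1 : (1 : ℝ) ≤ N := by exact_mod_cast hN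
  set cell : UT g → Σ p : M × M, Cl p.1 p.2 := cellOf hφ h c τ N with hcell
  have hinj : Set.InjOn cell E := by
    intro x hx y hy hxy
    by_contra hne
    obtain ⟨i, hi, hi'⟩ := hE x hx y hy hne
    exact cellOf_ne hφ h hκ hτ hi hi' hxy
  have hlt : ∀ x, ∀ v ∈ nearSet S (cell x) η, nm g (c x.pt) v < N + 1 := by
    intro x v hv
    have h1 := (abs_lt.1 (abs_sub_lt hφ h hτ hη1 N x hv)).2
    linarith
  -- the weight of a point
  have hwt : ∀ x, Real.exp (-((∫ s in (0 : ℝ)..N, t (φ s x)) + 3 * e * N)) ≤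
      D₀ * Real.exp (-(e * N)) * (dens0 g (c x.pt) * volume.real (nearSet S (cell x) η)) := by
    intro x
    set a : ℝ := ∫ s in (0 : ℝ)..N, t (φ s x) with ha
    have hd : 0 ≤ dens0 g (c x.pt) := Real.sqrt_nonneg _
    have hBt : volume {v : EV n | nm g (c x.pt) v < N + 1} ≠ ⊤ := by
      have h1 := (C1.isCompact_nrm_le S (c x.pt) (N + 1)).measure_lt_top (μ := volume)
      refine (lt_of_le_of_lt (measure_mono fun v hv => ?_) h1).ne
      have hv : nm g (c x.pt) v < N + 1 := hv
      exact hv.le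
    have h1 := measure_nb_le hφ h hμ (η := η) (c := c) (τ := τ) (N := N) (x := x)
      (B := C * dens0 g (c x.pt) * Real.exp (a + 2 * e * N + 3 * T₀ + e)) (by positivity)
      (fun v hv => jac_near hφ h hκ hκ1 hτ hη1 ht hT₀ he hnear hC hj hN x hv)
      (ne_top_of_le_ne_top hBt (measure_mono (hlt x)))
    have h2 := (hcF _ (hc (φ N x).pt)).trans h1
    have h3 : Real.exp (a + 2 * e * N + 3 * T₀ + e) =
        Real.exp (3 * T₀ + e) * Real.exp (-(e * N)) * Real.exp (a + 3 * e * N) := by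
      rw [← Real.exp_add, ← Real.exp_add]
      congr 1
      ring
    rw [h3] at h2
    rw [Real.exp_neg (a + 3 * e * N), inv_le_iff_one_le_mul₀ (Real.exp_pos _)]
    have h4 : D₀ * Real.exp (-(e * N)) * (dens0 g (c x.pt) *
        volume.real (nearSet S (cell x) η)) * Real.exp (a + 3 * e * N) =
        (C * dens0 g (c x.pt) * (Real.exp (3 * T₀ + e) * Real.exp (-(e * N)) *
          Real.exp (a + 3 * e * N)) * volume.real (nearSet S (cell x) η)) / c₀ := by
      rw [hD₀]
      ring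
    rw [h4, le_div_iff₀ hc₀, one_mul]
    exact h2
  -- the sum over a fiber
  have hfib : ∀ p ∈ F ×ˢ F, ∑ x ∈ E with (cell x).1 = p,
      Real.exp (-((∫ s in (0 : ℝ)..N, t (φ s x)) + 3 * e * N)) ≤
      D₀ * κ₀ * (n.factorial / e ^ n * Real.exp e) := by
    intro p _
    have hd : 0 ≤ dens0 g p.1 := Real.sqrt_nonneg _
    have hcp : ∀ x ∈ E.filter (fun x => (cell x).1 = p), c x.pt = p.1 := by
      intro x hx
      have h1 := (Finset.mem_filter.1 hx).2
      rw [← h1]
      rfl
    have h2 := sum_volume_le h hη2 hsy (E.filter fun x => (cell x).1 = p) cell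
      (hinj.mono (by
        intro x hx
        exact (Finset.mem_filter.1 hx).1)) (p := p) (R := N + 1)
      (fun x hx => (Finset.mem_filter.1 hx).2) (fun x hx v hv => by
        rw [← hcp x hx]
        exact hlt x v hv)
    have h3 := hvol g p.1 (N + 1) (by positivity)
    have h4 := pow_le_const_mul_exp n he (show (0 : ℝ) ≤ N + 1 by positivity)
    calc ∑ x ∈ E with (cell x).1 = p,
        Real.exp (-((∫ s in (0 : ℝ)..N, t (φ s x)) + 3 * e * N))
        ≤ ∑ x ∈ E with (cell x).1 = p, D₀ * Real.exp (-(e * N)) *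
          (dens0 g p.1 * volume.real (nearSet S (cell x) η)) := by
          refine Finset.sum_le_sum fun x hx => ?_
          have h5 := hwt x
          rw [hcp x hx] at h5
          exact h5
      _ = D₀ * Real.exp (-(e * N)) * (dens0 g p.1 *
          ∑ x ∈ E with (cell x).1 = p, volume.real (nearSet S (cell x) η)) := by
          rw [Finset.mul_sum, Finset.mul_sum]
      _ ≤ D₀ * Real.exp (-(e * N)) * (κ₀ * (N + 1) ^ n) := by
          rw [← h3]
          gcongr
      _ ≤ D₀ * Real.exp (-(e * N)) *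
          (κ₀ * (n.factorial / e ^ n * Real.exp (e * (N + 1)))) := by gcongr
      _ = D₀ * κ₀ * (n.factorial / e ^ n * (Real.exp (-(e * N)) * Real.exp (e * (N + 1)))) := by
          ring
      _ = D₀ * κ₀ * (n.factorial / e ^ n * Real.exp e) := by
          rw [← Real.exp_add]
          congr 3
          ring
  calc ∑ x ∈ E, Real.exp (-((∫ s in (0 : ℝ)..N, t (φ s x)) + 3 * e * N))
      = ∑ p ∈ F ×ˢ F, ∑ x ∈ E with (cell x).1 = p,
        Real.exp (-((∫ s in (0 : ℝ)..N, t (φ s x)) + 3 * e * N)) := by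
        symm
        apply Finset.sum_fiberwise_of_maps_to
        intro x _
        exact Finset.mem_product.2 ⟨hc _, hc _⟩
    _ ≤ ∑ p ∈ F ×ˢ F, D₀ * κ₀ * (n.factorial / e ^ n * Real.exp e) :=
        Finset.sum_le_sum hfib
    _ = (F.card : ℝ) ^ 2 * (D₀ * κ₀ * (n.factorial / e ^ n * Real.exp e)) := by
        rw [Finset.sum_const, Finset.card_product, nsmul_eq_mul]
        push_cast
        ring

/-- C2. The inequality of Ruelle: the entropy of an invariant probability measure is at most the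
integral of a continuous function whose integrals along the orbits bound the logarithms of the
Jacobians of the exponential maps. -/
theorem ksEntropy_le_of_jac (hn : 1 ≤ n) (hφ : IsGeoFlow g φ) (h : Npc (mt g))
    {ν : Measure (UT g)} [IsProbabilityMeasure ν] (hν : ∀ t, MeasurePreserving (φ t) ν ν)
    {t : UT g → ℝ} (ht : Continuous t)
    (hj : ∀ e > 0, ∃ C : ℝ, ∀ (p : UT g) (r : ℝ), 0 ≤ r →
      jac g p.pt (r • (p.vec : EV n)) ≤
        C * dens0 g p.pt * Real.exp ((∫ s in (0 : ℝ)..r, t (φ s p)) + e * r)) :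
    ksEntropy ν (φ 1) ≤ ENNReal.ofReal (∫ p, t p ∂ν) := by
  have := compactSpace_UT g
  have := t2Space_UT g
  have := metrizableSpace_UT g
  let : MetricSpace (UT g) := TopologicalSpace.metrizableSpaceMetric (UT g)
  have hcont1 : Continuous (φ 1) :=
    hφ.continuous.comp (by fun_prop : Continuous fun p : UT g => ((1 : ℝ), p))
  have hint : Integrable t ν := by
    obtain ⟨B, hB⟩ : ∃ B, ∀ x, ‖t x‖ ≤ B := by
      obtain ⟨B, hB⟩ := (isCompact_range ht).isBounded.exists_norm_le
      exact ⟨B, fun x => hB _ (mem_range_self x)⟩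
    exact Integrable.of_bound ht.aestronglyMeasurable B (Eventually.of_forall hB)
  -- the estimate with a loss
  have main : ∀ e : ℝ, 0 < e → ksEntropy ν (φ 1) ≤
      ENNReal.ofReal ((∫ p, t p ∂ν) + 3 * e) := by
    intro e he
    have ha : Continuous fun p : UT g => t p + 3 * e := ht.add continuous_const
    have hF : Continuous fun p : UT g => ∫ s in (0 : ℝ)..1, (t (φ s p) + 3 * e) :=
      continuous_avg hφ.continuous ha
    have hint2 : ∫ p, (∫ s in (0 : ℝ)..1, (t (φ s p) + 3 * e)) ∂ν = (∫ p, t p ∂ν) + 3 * e := by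
      rw [integral_avg hφ.continuous hν ha, integral_add hint (integrable_const _)]
      simp
    rw [← hint2]
    apply ksEntropy_le_of_sum hcont1 (hν 1) hF
    intro ε hε
    obtain ⟨C, hC⟩ := hj e he
    obtain ⟨κ₁, hκ₁, hnear₁⟩ := exists_near hφ h ht he
    obtain ⟨κ₂, hκ₂, hnear₂⟩ := exists_dist_lt (sys g h) (f := fun t (p : UT g) => (φ t p).pt)
      (fun t => (continuous_pt g).comp (hφ.continuous.comp
        (by fun_prop : Continuous fun p : UT g => (t, p))))
      (fun p q h' => eq_of_pt_eq hφ h h') hε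
    set κ := min 1 (min κ₁ κ₂) with hκdef
    have hκ : 0 < κ := lt_min one_pos (lt_min hκ₁ hκ₂)
    have hκκ₁ : κ ≤ κ₁ := (min_le_right _ _).trans (min_le_left _ _)
    have hκκ₂ : κ ≤ κ₂ := (min_le_right _ _).trans (min_le_right _ _)
    obtain ⟨D, hD⟩ := sum_exp_neg_le hn hφ h ht he (abs_nonneg C) (fun p r hr => by
      refine (hC p r hr).trans ?_
      have hd : 0 ≤ dens0 g p.pt := Real.sqrt_nonneg _
      gcongr
      exact le_abs_self C) hκ (min_le_left _ _) (fun p q hpq => hnear₁ p q fun s hs => by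
        obtain ⟨δ, hδ⟩ := hpq s hs
        exact ⟨δ, hδ.trans hκκ₁⟩)
    refine ⟨max 1 D, fun N E hE => ?_⟩
    rcases Nat.eq_zero_or_pos N with hN | hN
    · subst hN
      have hcard : E.card ≤ 1 := by
        rw [Finset.card_le_one]
        intro x hx y hy
        by_contra hne
        obtain ⟨i, hi, -⟩ := hE x hx y hy hne
        exact absurd hi (Nat.not_lt_zero i)
      simp only [Finset.range_zero, Finset.sum_empty, neg_zero, Real.exp_zero,
        Finset.sum_const, nsmul_eq_mul, mul_one]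
      exact le_max_of_le_left (by exact_mod_cast hcard)
    · refine le_trans (le_of_eq ?_) ((hD N E hN ?_).trans (le_max_right _ _))
      · refine Finset.sum_congr rfl fun x _ => ?_
        congr 2
        have h1 := sum_avg hφ.continuous hφ.add ha N x
        have h2 : ∫ s in (0 : ℝ)..N, (t (φ s x) + 3 * e) =
            (∫ s in (0 : ℝ)..N, t (φ s x)) + 3 * e * N := by
          have h3 : Continuous fun s : ℝ => t (φ s x) :=
            ht.comp (hφ.continuous.comp (by fun_prop : Continuous fun s : ℝ => (s, x)))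
          rw [intervalIntegral.integral_add (h3.intervalIntegrable _ _)
            intervalIntegrable_const, intervalIntegral.integral_const, sub_zero, smul_eq_mul]
          ring
        rw [← h2, ← h1]
        simp_rw [hφ.iterate_one]
      · intro x hx y hy hxy
        obtain ⟨i, hi, hdist⟩ := hE x hx y hy hxy
        refine ⟨i, hi, fun hcon => ?_⟩
        rw [hφ.iterate_one, hφ.iterate_one] at hdist
        have h4 := hnear₂ (φ i x) (φ i y) fun s hs => by
          obtain ⟨δ, hδ⟩ := hcon s hs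
          exact ⟨δ, hδ.trans hκκ₂⟩
        linarith
  -- the limit
  have hlim : Tendsto (fun e : ℝ => ENNReal.ofReal ((∫ p, t p ∂ν) + 3 * e)) (𝓝[>] 0)
      (𝓝 (ENNReal.ofReal ((∫ p, t p ∂ν) + 3 * 0))) := by
    apply Tendsto.mono_left _ nhdsWithin_le_nhds
    exact (ENNReal.continuous_ofReal.comp (by fun_prop :
      Continuous fun e : ℝ => (∫ p, t p ∂ν) + 3 * e)).tendsto 0
  rw [mul_zero, add_zero] at hlim
  refine ge_of_tendsto hlim ?_
  filter_upwards [self_mem_nhdsWithin] with e he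
  exact main e he

/-- C2 for the Liouville measure -/
theorem ksEntropy_liouville_le_of_jac (hn : 1 ≤ n) {μ : Measure M} {m : Measure (UT g)}
    (hφ : IsGeoFlow g φ) (hμ : IsRiemVol g μ) (hm : IsLiouville g μ m) (h : Npc (mt g))
    {t : UT g → ℝ} (ht : Continuous t)
    (hj : ∀ e > 0, ∃ C : ℝ, ∀ (p : UT g) (r : ℝ), 0 ≤ r →
      jac g p.pt (r • (p.vec : EV n)) ≤
        C * dens0 g p.pt * Real.exp ((∫ s in (0 : ℝ)..r, t (φ s p)) + e * r)) :
    ksEntropy m (φ 1) ≤ ENNReal.ofReal (∫ p, t p ∂m) := by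
  have := hm.1
  exact ksEntropy_le_of_jac hn hφ h (fun s => hm.measurePreserving hn hφ hμ s) ht hj

end Q

end Vale.Agent.P207
end
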