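import Vale.Agent.P207.BlkD1

/-!
# P207, block A11: a metric of constant sectional curvature is locally symmetric
-/

open scoped Manifold ContDiff ENNReal Topology
open Bundle MeasureTheory Set Filter

set_option maxSynthPendingDepth 3

noncomputable section

namespace Vale.Agent.P207.Q.CS

open Vale.Agent.P255 Vale.Agent.P207 Vale.Agent.P207.D1

section Coord

variable {E : Type} [NormedAddCommGroup E] [NormedSpace ℝ E] [FiniteDimensional ℝ E]
variable {G : E → E →L[ℝ] E →L[ℝ] ℝ} {U : Set E}

/-- a curvature-like form is determined by its sectional curvatures: scalar form -/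
theorem form_eq_zero {V : Type*} [AddCommGroup V] {D : V → V → V → V → ℝ}
    (add1 : ∀ x x' y z w, D (x + x') y z w = D x y z w + D x' y z w)
    (add2 : ∀ x y y' z w, D x (y + y') z w = D x y z w + D x y' z w)
    (add3 : ∀ x y z z' w, D x y (z + z') w = D x y z w + D x y z' w)
    (add4 : ∀ x y z w w', D x y z (w + w') = D x y z w + D x y z w')
    (anti : ∀ x y z w, D x y z w = - D y x z w)
    (pair : ∀ x y z w, D x y z w = D z w x y)
    (bian : ∀ x y z w, D x y z w + D y z x w + D z x y w = 0)
    (sec : ∀ x y, D x y y x = 0) (x y z w : V) : D x y z w = 0 := by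
  have skew : ∀ x y z w, D x y z w = - D x y w z := by
    intro x y z w
    rw [pair x y z w, anti z w x y, pair w z x y]
  have h1 : ∀ x z y, D x y y z = 0 := by
    intro x z y
    have e := sec (x + z) y
    rw [add1, add4, add4, sec, sec] at e
    have e2 : D z y y x = D x y y z := by
      rw [pair z y y x, anti y x z y, skew x y z y, neg_neg]
    linarith
  have h2 : ∀ x y w z, D x y w z = - D x w y z := by
    intro x y w z
    have e := h1 x z (y + w)
    rw [add2, add3, add3, h1, h1] at e
    linarith
  have h3 : ∀ x y w z, D x y w z = D w x y z := by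
    intro x y w z
    rw [h2 x y w z, anti x w y z, neg_neg]
  have e := bian x y z w
  have e1 := h3 x y z w
  have e2 := h3 z x y w
  have e3 := h3 y z x w
  linarith

/-- constant sectional curvature: the curvature tensor -/
theorem curvT_eq_of_sec (h : IsMetricOn G U) {u : E} (hu : u ∈ U) {κ : ℝ}
    (hc : ∀ v w, G u (curvT G u w v v) w = κ * (G u v v * G u w w - G u v w ^ 2)) (x y z : E) :
    curvT G u x y z = κ • (G u y z • x - G u x z • y) := by
  have hs := h.symm u hu
  have key : ∀ x y z w, G u (curvT G u x y z) w - κ * (G u y z * G u x w - G u x z * G u y w)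
      = 0 := by
    apply form_eq_zero (D := fun x y z w => G u (curvT G u x y z) w
      - κ * (G u y z * G u x w - G u x z * G u y w))
    · intro x x' y z w
      simp only [map_add, add_apply]
      ring
    · intro x y y' z w
      simp only [map_add, add_apply]
      ring
    · intro x y z z' w
      simp only [map_add, add_apply]
      ring
    · intro x y z w w'
      simp only [map_add]
      ring
    · intro x y z w
      rw [curvT_anti h hu x y z]
      simp only [map_neg, neg_apply]
      ring
    · intro x y z w
      rw [curvT_pair_symm h hu x y z w, hs y z, hs x w, hs x z, hs y w]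
      ring
    · intro x y z w
      have e := congrArg (fun q => G u q w) (curvT_bianchi h hu x y z)
      simp only [map_add, add_apply, map_zero, zero_apply] at e
      have e1 := hs x y
      have e2 := hs y z
      have e3 := hs x z
      simp only [hs y x, hs z y, hs z x]
      linarith
    · intro x y
      have e := hc y x
      have e1 := hs x y
      simp only [e, e1]
      ring
  apply h.ext_of hu
  intro w
  have e := key x y z w
  simp only [map_smul, map_sub, smul_apply, sub_apply, smul_eq_mul]
  linarith

/-- the formula for orthonormal pairs implies the general formula -/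
theorem sec_of_unit (h : IsMetricOn G U) {u : E} (hu : u ∈ U) {κ : ℝ}
    (hc : ∀ v w, G u v v = 1 → G u v w = 0 → G u w w = 1 → G u (curvT G u w v v) w = κ) (v w : E) :
    G u (curvT G u w v v) w = κ * (G u v v * G u w w - G u v w ^ 2) := by
  have hs := h.symm u hu
  have self : ∀ x y, curvT G u x x y = 0 := by
    intro x y
    have e := curvT_anti h hu x x y
    have e2 : (2 : ℝ) • curvT G u x x y = 0 := by
      rw [two_smul]
      nth_rewrite 1 [e]
      simp
    exact (smul_eq_zero.1 e2).resolve_left (by norm_num)
  by_cases hv : v = 0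
  · subst hv; simp
  have hvp := h.pos u hu v hv
  set s := Real.sqrt (G u v v) with hsdef
  have hs0 : 0 < s := Real.sqrt_pos.2 hvp
  have hs2 : s * s = G u v v := Real.mul_self_sqrt hvp.le
  -- the orthogonal part of w
  set c := G u v w / G u v v with hcdef
  set w' := w - c • v with hw'
  have hvw' : G u v w' = 0 := by
    simp only [hw', map_sub, map_smul, smul_eq_mul, hcdef]
    field_simp
    ring
  have hdecomp : w = w' + c • v := by simp [hw']
  have hG : G u w w = G u w' w' + c ^ 2 * G u v v := by
    conv_lhs => rw [hdecomp]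
    simp only [map_add, map_smul, add_apply, smul_apply, smul_eq_mul, hvw', hs w' v]
    ring
  have hGvw : G u v w = c * G u v v := by
    rw [hcdef]; field_simp
  have hcurv : G u (curvT G u w v v) w = G u (curvT G u w' v v) w' := by
    conv_lhs => rw [hdecomp]
    have e1 : G u (curvT G u w' v v) v = 0 := by
      have := curvT_skew h hu w' v v v
      linarith
    simp only [map_add, map_smul, add_apply, smul_apply, smul_eq_mul, self, smul_zero, add_zero,
      e1, mul_zero]
  rw [hcurv, hG, hGvw]
  by_cases hw0 : w' = 0
  · rw [hw0]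
    simp
    ring_nf
    tauto
  have hwp := h.pos u hu w' hw0
  set r := Real.sqrt (G u w' w') with hrdef
  have hr0 : 0 < r := Real.sqrt_pos.2 hwp
  have hr2 : r * r = G u w' w' := Real.mul_self_sqrt hwp.le
  have e := hc (s⁻¹ • v) (r⁻¹ • w') ?_ ?_ ?_
  · simp only [map_smul, smul_apply, smul_eq_mul] at e
    have e3 : G u (curvT G u w' v v) w' = κ * (s * s) * (r * r) := by
      rw [← e]
      field_simp
    rw [e3, hs2, hr2]
    ring
  · simp only [map_smul, smul_apply, smul_eq_mul]
    rw [← hs2]
    field_simp
  · simp only [map_smul, smul_apply, smul_eq_mul, hvw']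
    ring
  · simp only [map_smul, smul_apply, smul_eq_mul]
    rw [← hr2]
    field_simp

theorem locSymOn_of_sec (h : IsMetricOn G U) {κ : ℝ}
    (hc : ∀ u ∈ U, ∀ v w, G u (curvT G u w v v) w = κ * (G u v v * G u w w - G u v w ^ 2)) :
    LocSymOn G U := by
  intro u hu w x y z
  have hf : ∀ p ∈ U, ∀ x y z, curvT G p x y z = κ • (G p y z • x - G p x z • y) := fun p hp =>
    curvT_eq_of_sec h hp (hc p hp)
  have h2 := ((contDiffAt_curvT h hu).differentiableAt (by simp)).hasFDerivAt
  have h3 := ((h2.clm_apply (hasFDerivAt_const x u)).clm_apply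
    (hasFDerivAt_const y u)).clm_apply (hasFDerivAt_const z u)
  have e0 : fderiv ℝ (fun p => curvT G p x y z) u w = fderiv ℝ (curvT G) u w x y z := by
    rw [h3.fderiv]
    simp
  have e1 : (fun p => curvT G p x y z) =ᶠ[𝓝 u] fun p => κ • (G p y z • x - G p x z • y) := by
    filter_upwards [h.mem_nhds hu] with p hp using hf p hp x y z
  have hG := (h.differentiableAt hu).hasFDerivAt
  have g1 : ∀ a b, HasFDerivAt (fun p => G p a b) ((fderiv ℝ G u).flip a |>.flip b) u := by
    intro a b
    have := (hG.clm_apply (hasFDerivAt_const a u)).clm_apply (hasFDerivAt_const b u)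
    refine this.congr_fderiv ?_
    ext q; simp
  have e2 : fderiv ℝ (fun p => κ • (G p y z • x - G p x z • y)) u w =
      κ • (fderiv ℝ G u w y z • x - fderiv ℝ G u w x z • y) := by
    have t1 := ((g1 y z).smul_const x).fun_sub ((g1 x z).smul_const y)
    have t2 := t1.fun_const_smul κ
    rw [t2.fderiv]
    simp
  rw [← e0, e1.fderiv_eq, e2, hf u hu, hf u hu, hf u hu, hf u hu, h.chris_compat hu,
    h.chris_compat hu]
  simp only [chrisB_apply, map_smul, map_sub]
  module

end Coord

section Mfd

variable {n : ℕ} {M : Type} [TopologicalSpace M] [ChartedSpace (EV n) M]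
  [IsManifold 𝓘(ℝ, EV n) ∞ M]

theorem locSymmetric_of_locSymOn {g : RMetric (EV n) M}
    (h : ∀ a : M, LocSymOn ((mt g).coef a) (chartAt (EV n) a).target) : LocSymmetric g := by
  intro a u hu w x y z
  have hm := (mt g).isMetricOn a
  have h1 := h a u hu w x y z
  have e1 : (fun p => Riem (coefIn g a) p x y z) =ᶠ[𝓝 u]
      fun p => curvT ((mt g).coef a) p x y z := by
    filter_upwards [hm.mem_nhds hu] with p hp using riem_mt g a hp x y z
  have e2 : fderiv ℝ (fun p => curvT ((mt g).coef a) p x y z) u w =
      fderiv ℝ (curvT ((mt g).coef a)) u w x y z := by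
    have h2 := ((contDiffAt_curvT hm hu).differentiableAt (by simp)).hasFDerivAt
    have h3 := ((h2.clm_apply (hasFDerivAt_const x u)).clm_apply
      (hasFDerivAt_const y u)).clm_apply (hasFDerivAt_const z u)
    rw [h3.fderiv]
    simp
  rw [Filter.EventuallyEq.fderiv_eq (𝕜 := ℝ) e1, e2, riem_mt g a hu, riem_mt g a hu,
    riem_mt g a hu, riem_mt g a hu, gam_mt g a hu, gam_mt g a hu, gam_mt g a hu,
    gam_mt g a hu, h1]
  abel

end Mfd

end Vale.Agent.P207.Q.CS

namespace Vale.Agent.P207.Q

open Vale.Agent.P255 (RMetric coefIn Gam Riem IsGeo)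
open Vale.Agent.P207

variable {n : ℕ} {M : Type} [TopologicalSpace M] [ChartedSpace (EV n) M]
  [IsManifold 𝓘(ℝ, EV n) ∞ M]

/-- **A11.** A metric of constant sectional curvature is locally symmetric. -/
theorem locSymmetric_of_const {g : RMetric (EV n) M} {κ : ℝ}
    (h : ∀ a : M, ∀ u ∈ (chartAt (EV n) a).target, ∀ v w : EV n,
      coefIn g a u (Riem (coefIn g a) u w v v) w =
        κ * (coefIn g a u v v * coefIn g a u w w - coefIn g a u v w ^ 2)) :
    LocSymmetric g := by
  apply CS.locSymmetric_of_locSymOn
  intro a
  apply CS.locSymOn_of_sec ((mt g).isMetricOn a) (κ := κ)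
  intro u hu v w
  rw [← D1.riem_mt g a hu]
  exact h a u hu v w

/-- **A11**, version for orthonormal pairs. -/
theorem locSymmetric_of_const_unit {g : RMetric (EV n) M} {κ : ℝ}
    (h : ∀ a : M, ∀ u ∈ (chartAt (EV n) a).target, ∀ v w : EV n, coefIn g a u v v = 1 →
      coefIn g a u v w = 0 → coefIn g a u w w = 1 →
      coefIn g a u (Riem (coefIn g a) u w v v) w = κ) :
    LocSymmetric g := by
  apply CS.locSymmetric_of_locSymOn
  intro a
  apply CS.locSymOn_of_sec ((mt g).isMetricOn a) (κ := κ)
  intro u hu v w
  apply CS.sec_of_unit ((mt g).isMetricOn a) hu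
  intro v w h1 h2 h3
  rw [← D1.riem_mt g a hu]
  exact h a u hu v w h1 h2 h3

end Vale.Agent.P207.Q
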