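import Vale.Agent.P207.Q.Dif
import Vale.Agent.P255.Bdl.B2

/-!
# P207 / Q: flows of smooth vector fields on compact spaces with smooth coordinates

`CSys ι V P`: coordinates `c i : P → V` on open subsets `S i` of a topological space `P`, with values
in open subsets `O i` of the finite-dimensional space `V` (the image of `S i` need not be open in `V`,
so `P` may be a submanifold in these coordinates), with smooth changes of coordinates.
`CSys.VF`: a smooth vector field in these coordinates which preserves the images. On a compact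
Hausdorff space it has a flow, which is jointly smooth. (helper858)
-/

set_option linter.unusedSectionVars false
set_option linter.unusedVariables false

open Set Filter Topology
open scoped ContDiff

namespace Vale.Agent.P207.Q.Fl

noncomputable section

/-- coordinates on a topological space -/
structure CSys (ι : Type) (V : Type) [NormedAddCommGroup V] [NormedSpace ℝ V] (P : Type)
    [TopologicalSpace P] where
  S : ι → Set P
  O : ι → Set V
  c : ι → P → V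
  inv : ι → V → P
  τ : ι → ι → V → V
  W : ι → ι → Set V
  isOpen_S : ∀ i, IsOpen (S i)
  isOpen_O : ∀ i, IsOpen (O i)
  cover : ∀ p, ∃ i, p ∈ S i
  mem_O : ∀ i p, p ∈ S i → c i p ∈ O i
  left : ∀ i p, p ∈ S i → inv i (c i p) = p
  cont : ∀ i, ContinuousOn (c i) (S i)
  contI : ∀ i, ContinuousOn (inv i) (c i '' S i)
  isOpen_W : ∀ i j, IsOpen (W i j)
  smooth_τ : ∀ i j, ContDiffOn ℝ ∞ (τ i j) (W i j)
  mem_W : ∀ i j p, p ∈ S i → p ∈ S j → c i p ∈ W i j
  τ_c : ∀ i j p, p ∈ S i → p ∈ S j → τ i j (c i p) = c j p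

variable {ι V P : Type} [NormedAddCommGroup V] [NormedSpace ℝ V] [TopologicalSpace P]

namespace CSys

variable (C : CSys ι V P)

theorem contAt_c {i : ι} {p : P} (h : p ∈ C.S i) : ContinuousAt (C.c i) p :=
  (C.cont i).continuousAt ((C.isOpen_S i).mem_nhds h)

/-- a map into `P` from a normed space which is smooth at a point in one chart is so in all
charts -/
theorem change {F : Type} [NormedAddCommGroup F] [NormedSpace ℝ F] {u : F → P} {y : F} {i j : ι}
    (hu : ContinuousAt u y) (hi : u y ∈ C.S i) (hj : u y ∈ C.S j)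
    (h : ContDiffAt ℝ ∞ (fun z => C.c i (u z)) y) : ContDiffAt ℝ ∞ (fun z => C.c j (u z)) y := by
  have h1 : ContDiffAt ℝ ∞ (C.τ i j) (C.c i (u y)) :=
    (C.smooth_τ i j).contDiffAt ((C.isOpen_W i j).mem_nhds (C.mem_W i j _ hi hj))
  have h2 : ContDiffAt ℝ ∞ (fun z => C.τ i j (C.c i (u z))) y := h1.comp y h
  refine h2.congr_of_eventuallyEq ?_
  filter_upwards [hu.eventually ((C.isOpen_S i).mem_nhds hi),
    hu.eventually ((C.isOpen_S j).mem_nhds hj)] with z h3 h4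
  exact (C.τ_c i j _ h3 h4).symm

/-- the diffeology of `P` -/
def dif : Dif P where
  At {F} _ _ _ u x := ∀ᶠ y in 𝓝 x, ContinuousAt u y ∧
    ∀ i, u y ∈ C.S i → ContDiffAt ℝ ∞ (fun z => C.c i (u z)) y
  open' h := eventually_eventually_nhds.2 h
  congr {F} _ _ _ u v x h hv := by
    filter_upwards [h, hv.eventuallyEq_nhds] with y h1 h2
    refine ⟨h1.1.congr h2, fun i hi => ?_⟩
    have h3 : v y = u y := h2.self_of_nhds.symm
    rw [h3] at hi
    exact (h1.2 i hi).congr_of_eventuallyEq (h2.symm.fun_comp (C.c i))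
  comp {F G} _ _ _ _ _ _ u g x h hg := by
    filter_upwards [hg, hg.continuousAt.eventually h] with y h1 h2
    exact ⟨h2.1.comp h1.continuousAt, fun i hi => (h2.2 i hi).comp y h1⟩

theorem at_of {F : Type} [NormedAddCommGroup F] [NormedSpace ℝ F] [FiniteDimensional ℝ F]
    {u : F → P} {x : F}
    (h : ∀ᶠ y in 𝓝 x, ContinuousAt u y ∧ ∃ i, u y ∈ C.S i ∧
      ContDiffAt ℝ ∞ (fun z => C.c i (u z)) y) : C.dif.At u x := by
  filter_upwards [h] with y hy
  obtain ⟨h1, i, h2, h3⟩ := hy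
  exact ⟨h1, fun j hj => C.change h1 h2 hj h3⟩

theorem at_cont {F : Type} [NormedAddCommGroup F] [NormedSpace ℝ F] [FiniteDimensional ℝ F]
    {u : F → P} {x : F} (h : C.dif.At u x) : ContinuousAt u x := h.self_of_nhds.1

/-- a smooth vector field in the coordinates of `C` -/
structure VF where
  f : ι → V → V
  smooth : ∀ i, ContDiffOn ℝ ∞ (f i) (C.O i)
  compat : ∀ i j p, p ∈ C.S i → p ∈ C.S j →
    fderiv ℝ (C.τ i j) (C.c i p) (f i (C.c i p)) = f j (C.c j p)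
  pres : ∀ i (y : ℝ → V) (a b : ℝ), a < 0 → 0 < b → y 0 ∈ C.c i '' C.S i →
    (∀ t ∈ Ioo a b, y t ∈ C.O i ∧ HasDerivAt y (f i (y t)) t) → ∀ t ∈ Ioo a b, y t ∈ C.c i '' C.S i

variable {C}

/-- integral curves on a set of times (usually open) -/
def IsInt (X : C.VF) (γ : ℝ → P) (s : Set ℝ) : Prop :=
  ∀ t ∈ s, ContinuousAt γ t ∧
    ∀ i, γ t ∈ C.S i → HasDerivAt (fun r => C.c i (γ r)) (X.f i (C.c i (γ t))) t

variable {X : C.VF} {γ γ₁ γ₂ : ℝ → P} {s : Set ℝ}

theorem IsInt.mono (h : IsInt X γ s) {s' : Set ℝ} (hs : s' ⊆ s) : IsInt X γ s' :=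
  fun t ht => h t (hs ht)

theorem IsInt.shift (h : IsInt X γ s) (r : ℝ) : IsInt X (fun t => γ (t + r)) {t | t + r ∈ s} := by
  intro t ht
  obtain ⟨h1, h2⟩ := h (t + r) ht
  refine ⟨ContinuousAt.comp (g := γ) (f := fun t => t + r) h1 (by fun_prop), fun i hi => ?_⟩
  exact (h2 i hi).comp_add_const t r

theorem IsInt.congr (h : IsInt X γ s) (hs : IsOpen s) (h' : ∀ t ∈ s, γ₁ t = γ t) :
    IsInt X γ₁ s := by
  intro t ht
  obtain ⟨h1, h2⟩ := h t ht
  have h3 : γ₁ =ᶠ[𝓝 t] γ := by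
    filter_upwards [hs.mem_nhds ht] with r hr using h' r hr
  refine ⟨h1.congr h3.symm, fun i hi => ?_⟩
  rw [h' t ht] at hi ⊢
  exact (h2 i hi).congr_of_eventuallyEq (h3.fun_comp (C.c i))

/-- local uniqueness -/
theorem IsInt.eventuallyEq {t : ℝ} (h₁ : ∀ᶠ r in 𝓝 t, IsInt X γ₁ {r})
    (h₂ : ∀ᶠ r in 𝓝 t, IsInt X γ₂ {r}) (h : γ₁ t = γ₂ t) : γ₁ =ᶠ[𝓝 t] γ₂ := by
  obtain ⟨i, hi⟩ := C.cover (γ₁ t)
  have hi' : γ₂ t ∈ C.S i := h ▸ hi
  have c1 : ContinuousAt γ₁ t := (h₁.self_of_nhds t rfl).1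
  have c2 : ContinuousAt γ₂ t := (h₂.self_of_nhds t rfl).1
  have e1 := c1.eventually ((C.isOpen_S i).mem_nhds hi)
  have e2 := c2.eventually ((C.isOpen_S i).mem_nhds hi')
  have hO : C.c i (γ₁ t) ∈ C.O i := C.mem_O i _ hi
  have hsm : ContDiffAt ℝ 1 (X.f i) (C.c i (γ₁ t)) :=
    ((X.smooth i).contDiffAt ((C.isOpen_O i).mem_nhds hO)).of_le (by simp)
  obtain ⟨K, U, hU, hK⟩ := hsm.exists_lipschitzOnWith
  have k1 : ContinuousAt (fun r => C.c i (γ₁ r)) t :=
    ContinuousAt.comp (g := C.c i) (C.contAt_c hi) c1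
  have k2 : ContinuousAt (fun r => C.c i (γ₂ r)) t :=
    ContinuousAt.comp (g := C.c i) (C.contAt_c hi') c2
  have hU2 : U ∈ 𝓝 (C.c i (γ₂ t)) := h ▸ hU
  have key : (fun r => C.c i (γ₁ r)) =ᶠ[𝓝 t] fun r => C.c i (γ₂ r) := by
    refine ODE_solution_unique_of_eventually (v := fun _ => X.f i) (s := fun _ => U) (K := K)
      (Eventually.of_forall fun _ => hK) ?_ ?_ (by simp only [h])
    · filter_upwards [h₁, e1, k1.eventually hU] with r q1 q2 q3
      exact ⟨(q1 r rfl).2 i q2, q3⟩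
    · filter_upwards [h₂, e2, k2.eventually hU2] with r q1 q2 q3
      exact ⟨(q1 r rfl).2 i q2, q3⟩
  filter_upwards [key, e1, e2] with r q1 q2 q3
  rw [← C.left i _ q2, ← C.left i _ q3, q1]

theorem IsInt.ev (h : IsInt X γ s) (hs : IsOpen s) {t : ℝ} (ht : t ∈ s) :
    ∀ᶠ r in 𝓝 t, IsInt X γ {r} := by
  filter_upwards [hs.mem_nhds ht] with r hr
  exact h.mono (singleton_subset_iff.2 hr)

/-- uniqueness of integral curves on intervals -/
theorem IsInt.unique [T2Space P] {a b : ℝ} (h₁ : IsInt X γ₁ (Ioo a b))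
    (h₂ : IsInt X γ₂ (Ioo a b)) {t₀ : ℝ} (ht₀ : t₀ ∈ Ioo a b) (h : γ₁ t₀ = γ₂ t₀) :
    ∀ t ∈ Ioo a b, γ₁ t = γ₂ t := by
  have hc1 : ContinuousOn γ₁ (Ioo a b) := fun t ht => (h₁ t ht).1.continuousWithinAt
  have hc2 : ContinuousOn γ₂ (Ioo a b) := fun t ht => (h₂ t ht).1.continuousWithinAt
  have hpre : IsPreconnected (Ioo a b) := isPreconnected_Ioo
  -- the agreement set is open; its complement in the interval is open
  by_contra hcon
  push Not at hcon
  obtain ⟨t₁, ht₁, hne⟩ := hcon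
  have hA : IsOpen {t | t ∈ Ioo a b ∧ γ₁ t = γ₂ t} := by
    rw [isOpen_iff_mem_nhds]
    rintro t ⟨ht, hte⟩
    filter_upwards [isOpen_Ioo.mem_nhds ht,
      IsInt.eventuallyEq (h₁.ev isOpen_Ioo ht) (h₂.ev isOpen_Ioo ht) hte] with r q1 q2
    exact ⟨q1, q2⟩
  have hB : IsOpen {t | t ∈ Ioo a b ∧ γ₁ t ≠ γ₂ t} := by
    rw [isOpen_iff_mem_nhds]
    rintro t ⟨ht, hte⟩
    have h3 := (((h₁ t ht).1.prodMk (h₂ t ht).1)).eventually
      ((isClosed_diagonal (X := P)).isOpen_compl.mem_nhds (x := (γ₁ t, γ₂ t)) hte)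
    filter_upwards [isOpen_Ioo.mem_nhds ht, h3] with r q1 q2
    exact ⟨q1, q2⟩
  obtain ⟨t, ht, hta, htb⟩ := hpre _ _ hA hB (fun t ht => by
    by_cases q : γ₁ t = γ₂ t
    · exact Or.inl ⟨ht, q⟩
    · exact Or.inr ⟨ht, q⟩) ⟨t₀, ht₀, ht₀, h⟩ ⟨t₁, ht₁, ht₁, hne⟩
  exact htb.2 hta.2

/-- gluing of two integral curves -/
theorem IsInt.glue [T2Space P] {a b c d : ℝ} (h₁ : IsInt X γ₁ (Ioo a b))
    (h₂ : IsInt X γ₂ (Ioo c d)) (hac : a ≤ c) (hbd : b ≤ d) {t₀ : ℝ} (ht₀ : t₀ ∈ Ioo c b)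
    (h : γ₁ t₀ = γ₂ t₀) :
    ∃ γ : ℝ → P, IsInt X γ (Ioo a d) ∧ (∀ t ∈ Ioo a b, γ t = γ₁ t) ∧
      ∀ t ∈ Ioo c d, γ t = γ₂ t := by
  classical
  have hun : ∀ t ∈ Ioo c b, γ₁ t = γ₂ t :=
    IsInt.unique (h₁.mono (Ioo_subset_Ioo_left hac)) (h₂.mono (Ioo_subset_Ioo_right hbd)) ht₀ h
  let γ : ℝ → P := fun t => if t < b ∧ a < t then γ₁ t else γ₂ t
  have e1 : ∀ t ∈ Ioo a b, γ t = γ₁ t := fun t ht => if_pos ⟨ht.2, ht.1⟩
  have e2 : ∀ t ∈ Ioo c d, γ t = γ₂ t := by
    intro t ht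
    by_cases q : t < b ∧ a < t
    · rw [show γ t = γ₁ t from if_pos q]
      exact hun t ⟨ht.1, q.1⟩
    · exact if_neg q
  refine ⟨γ, ?_, e1, e2⟩
  have i1 : IsInt X γ (Ioo a b) := h₁.congr isOpen_Ioo e1
  have i2 : IsInt X γ (Ioo c d) := h₂.congr isOpen_Ioo e2
  intro t ht
  by_cases q : t < b
  · exact i1 t ⟨ht.1, q⟩
  · exact i2 t ⟨lt_of_lt_of_le (ht₀.1.trans ht₀.2) (not_lt.1 q), ht.2⟩

/-- local flows -/
theorem exists_local [FiniteDimensional ℝ V] (X : C.VF) (p₀ : P) :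
    ∃ (i : ι) (ε : ℝ) (N : Set P) (Φ : ℝ → V → V) (W : Set V), 0 < ε ∧ IsOpen N ∧ p₀ ∈ N ∧
      IsOpen W ∧ ContDiffOn ℝ ∞ (fun p : ℝ × V => Φ p.1 p.2) (Ioo (-ε) ε ×ˢ W) ∧
      (∀ p ∈ N, p ∈ C.S i ∧ C.c i p ∈ W ∧ Φ 0 (C.c i p) = C.c i p ∧
        IsInt X (fun t => C.inv i (Φ t (C.c i p))) (Ioo (-ε) ε) ∧
        ∀ t ∈ Ioo (-ε) ε, C.inv i (Φ t (C.c i p)) ∈ C.S i ∧
          C.c i (C.inv i (Φ t (C.c i p))) = Φ t (C.c i p)) := by
  obtain ⟨i, hi⟩ := C.cover p₀
  obtain ⟨ε, hε, W, hW, hxW, Φ, h0, h1, h2⟩ := P255.exists_flow_smooth (X.f i) (C.O i)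
    (C.isOpen_O i) (X.smooth i) (C.c i p₀) (C.mem_O i _ hi)
  refine ⟨i, ε, C.S i ∩ C.c i ⁻¹' W, Φ, W, hε, (C.cont i).isOpen_inter_preimage (C.isOpen_S i) hW,
    ⟨hi, hxW⟩, hW, h2, ?_⟩
  rintro p ⟨hp, hpW⟩
  have hpW' : C.c i p ∈ W := hpW
  have hT : ∀ t ∈ Ioo (-ε) ε, Φ t (C.c i p) ∈ C.c i '' C.S i := by
    refine X.pres i (fun t => Φ t (C.c i p)) (-ε) ε (by linarith) hε ?_ ?_
    · simp only [h0 _ hpW']
      exact ⟨p, hp, rfl⟩
    · intro t ht
      exact h1 _ hpW' t ht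
  have hS : ∀ t ∈ Ioo (-ε) ε, C.inv i (Φ t (C.c i p)) ∈ C.S i ∧
      C.c i (C.inv i (Φ t (C.c i p))) = Φ t (C.c i p) := by
    intro t ht
    obtain ⟨q, hq, hqe⟩ := hT t ht
    rw [← hqe, C.left i q hq]
    exact ⟨hq, rfl⟩
  refine ⟨hp, hpW', h0 _ hpW', ?_, hS⟩
  intro t ht
  have hy : HasDerivAt (fun s => Φ s (C.c i p)) (X.f i (Φ t (C.c i p))) t := (h1 _ hpW' t ht).2
  have hcont : ContinuousAt (fun t => C.inv i (Φ t (C.c i p))) t := by
    have q1 : ContinuousWithinAt (C.inv i) (C.c i '' C.S i) (Φ t (C.c i p)) :=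
      C.contI i _ (hT t ht)
    have q2 : Tendsto (fun s => Φ s (C.c i p)) (𝓝 t) (𝓝[C.c i '' C.S i] (Φ t (C.c i p))) := by
      rw [tendsto_nhdsWithin_iff]
      refine ⟨hy.continuousAt, ?_⟩
      filter_upwards [isOpen_Ioo.mem_nhds ht] with r hr using hT r hr
    exact Tendsto.comp q1 q2
  refine ⟨hcont, fun j hj => ?_⟩
  -- the derivative in the chart `i`
  have hdi : HasDerivAt (fun r => C.c i (C.inv i (Φ r (C.c i p)))) (X.f i (Φ t (C.c i p))) t := by
    refine hy.congr_of_eventuallyEq ?_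
    filter_upwards [isOpen_Ioo.mem_nhds ht] with r hr using (hS r hr).2
  set q := C.inv i (Φ t (C.c i p)) with hq
  have hqi : q ∈ C.S i := (hS t ht).1
  have hqe : C.c i q = Φ t (C.c i p) := (hS t ht).2
  have hτ : DifferentiableAt ℝ (C.τ i j) (C.c i q) :=
    ((C.smooth_τ i j).contDiffAt ((C.isOpen_W i j).mem_nhds
      (C.mem_W i j q hqi hj))).differentiableAt (by simp)
  have h5 : HasDerivAt (fun r => C.τ i j (C.c i (C.inv i (Φ r (C.c i p)))))
      (fderiv ℝ (C.τ i j) (C.c i q) (X.f i (C.c i q))) t := by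
    rw [hqe] at hτ ⊢
    refine HasFDerivAt.comp_hasDerivAt_of_eq (l := C.τ i j) t hτ.hasFDerivAt hdi ?_
    rw [← hq, hqe]
  rw [X.compat i j q hqi hj] at h5
  refine h5.congr_of_eventuallyEq ?_
  filter_upwards [isOpen_Ioo.mem_nhds ht, hcont.eventually ((C.isOpen_S j).mem_nhds hj)] with r hr
    hr'
  exact (C.τ_c i j _ (hS r hr).1 hr').symm

/-- uniform local existence -/
theorem exists_uniform [FiniteDimensional ℝ V] [CompactSpace P] (X : C.VF) :
    ∃ ε > 0, ∀ p : P, ∃ γ : ℝ → P, γ 0 = p ∧ IsInt X γ (Ioo (-ε) ε) := by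
  choose i ε N Φ W hε hN hp hW hs h using fun p₀ => exists_local X p₀
  obtain ⟨t, ht⟩ := isCompact_univ.elim_finite_subcover (fun p₀ => N p₀) hN
    (fun p _ => mem_iUnion.2 ⟨p, hp p⟩)
  have hex : ∃ δ > 0, ∀ p₀ ∈ t, δ ≤ ε p₀ := by
    by_cases hne : t.Nonempty
    · obtain ⟨q, hq, hmin⟩ := t.exists_min_image ε hne
      exact ⟨ε q, hε q, hmin⟩
    · exact ⟨1, one_pos, fun p₀ h => absurd ⟨p₀, h⟩ hne⟩
  obtain ⟨δ, hδ, hle⟩ := hex
  refine ⟨δ, hδ, fun p => ?_⟩
  have hpu := ht (mem_univ p)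
  simp only [mem_iUnion] at hpu
  obtain ⟨p₀, hp₀, hpN⟩ := hpu
  obtain ⟨h1, h2, h3, h4, h5⟩ := h p₀ p hpN
  refine ⟨fun t => C.inv (i p₀) (Φ p₀ t (C.c (i p₀) p)), ?_, h4.mono ?_⟩
  · simp only [h3]
    exact C.left _ p h1
  · exact Ioo_subset_Ioo (neg_le_neg (hle p₀ hp₀)) (hle p₀ hp₀)

/-- integral curves through every point at every time, uniformly -/
theorem exists_uniform_at [FiniteDimensional ℝ V] [CompactSpace P] (X : C.VF) :
    ∃ ε > 0, ∀ (p : P) (s : ℝ), ∃ γ : ℝ → P, γ s = p ∧ IsInt X γ (Ioo (s - ε) (s + ε)) := by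
  obtain ⟨ε, hε, h⟩ := exists_uniform X
  refine ⟨ε, hε, fun p s => ?_⟩
  obtain ⟨γ, h0, h1⟩ := h p
  refine ⟨fun t => γ (t + -s), by simpa using h0, (h1.shift (-s)).mono ?_⟩
  intro t ht
  simp only [mem_ofPred_eq, mem_Ioo] at ht ⊢
  constructor <;> linarith [ht.1, ht.2]

/-- global existence -/
theorem exists_big [FiniteDimensional ℝ V] [CompactSpace P] [T2Space P] (X : C.VF) (p : P)
    (T : ℝ) : ∃ γ : ℝ → P, γ 0 = p ∧ IsInt X γ (Ioo (-T) T) := by
  obtain ⟨ε, hε, h⟩ := exists_uniform_at X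
  -- intervals `Ioo (-(n+1) ε/2) ((n+1) ε/2)`
  have key : ∀ n : ℕ, ∃ γ : ℝ → P, γ 0 = p ∧
      IsInt X γ (Ioo (-((n + 1) * (ε / 2))) ((n + 1) * (ε / 2))) := by
    intro n
    induction n with
    | zero =>
      obtain ⟨γ, h0, h1⟩ := h p 0
      refine ⟨γ, h0, h1.mono ?_⟩
      apply Ioo_subset_Ioo <;> simp <;> linarith
    | succ n ih =>
      obtain ⟨γ, h0, h1⟩ := ih
      have hn : (0 : ℝ) ≤ n := Nat.cast_nonneg n
      set T := ((n : ℝ) + 1) * (ε / 2) with hT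
      have hT2 : ε / 2 ≤ T := by
        rw [hT]
        nlinarith
      -- extend to the right
      obtain ⟨σ, hσ0, hσ1⟩ := h (γ (T - ε / 4)) (T - ε / 4)
      obtain ⟨γ₁, g1, g2, g3⟩ := IsInt.glue (a := -T) (b := T) (c := T - ε / 2)
        (d := T + ε / 2) (t₀ := T - ε / 4) h1
        (hσ1.mono (Ioo_subset_Ioo (by linarith) (by linarith))) (by linarith) (by linarith)
        ⟨by linarith, by linarith⟩ hσ0.symm
      -- extend to the left
      obtain ⟨σ', hσ0', hσ1'⟩ := h (γ₁ (-T + ε / 4)) (-T + ε / 4)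
      obtain ⟨γ₂, g1', g2', g3'⟩ := IsInt.glue (a := -T - ε / 2) (b := -T + ε / 2) (c := -T)
        (d := T + ε / 2) (t₀ := -T + ε / 4)
        (hσ1'.mono (Ioo_subset_Ioo (by linarith) (by linarith))) g1 (by linarith) (by linarith)
        ⟨by linarith, by linarith⟩ hσ0'
      refine ⟨γ₂, ?_, g1'.mono ?_⟩
      · rw [g3' 0 ⟨by linarith, by linarith⟩, g2 0 ⟨by linarith, by linarith⟩, h0]
      · apply Ioo_subset_Ioo <;> push_cast <;> rw [hT] <;> linarith
  obtain ⟨n, hn⟩ := exists_nat_gt (T / (ε / 2))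
  obtain ⟨γ, h0, h1⟩ := key n
  have hn' : T ≤ (n + 1) * (ε / 2) := by
    rw [div_lt_iff₀ (by positivity)] at hn
    nlinarith
  exact ⟨γ, h0, h1.mono (Ioo_subset_Ioo (by linarith) hn')⟩

theorem exists_global [FiniteDimensional ℝ V] [CompactSpace P] [T2Space P] (X : C.VF) (p : P) :
    ∃ γ : ℝ → P, γ 0 = p ∧ IsInt X γ univ := by
  choose g h0 h1 using fun n : ℕ => exists_big X p ((n : ℝ) + 1)
  let γ : ℝ → P := fun t => g ⌈|t|⌉₊ t
  have hag : ∀ (n : ℕ) (t : ℝ), t ∈ Ioo (-((n : ℝ) + 1)) (n + 1) → γ t = g n t := by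
    intro n t ht
    have hm : |t| < (⌈|t|⌉₊ : ℝ) + 1 := (Nat.le_ceil _).trans_lt (lt_add_one _)
    rw [abs_lt] at hm
    rcases le_total ⌈|t|⌉₊ n with hle | hle
    · have hle' : (⌈|t|⌉₊ : ℝ) ≤ n := Nat.cast_le.2 hle
      exact IsInt.unique (h1 ⌈|t|⌉₊) ((h1 n).mono (Ioo_subset_Ioo (by linarith) (by linarith)))
        (t₀ := 0) ⟨by linarith [Nat.cast_nonneg (α := ℝ) ⌈|t|⌉₊],
          by linarith [Nat.cast_nonneg (α := ℝ) ⌈|t|⌉₊]⟩ ((h0 _).trans (h0 _).symm) t hm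
    · have hle' : (n : ℝ) ≤ ⌈|t|⌉₊ := Nat.cast_le.2 hle
      exact IsInt.unique ((h1 ⌈|t|⌉₊).mono (Ioo_subset_Ioo (by linarith) (by linarith))) (h1 n)
        (t₀ := 0) ⟨by linarith [Nat.cast_nonneg (α := ℝ) n],
          by linarith [Nat.cast_nonneg (α := ℝ) n]⟩ ((h0 _).trans (h0 _).symm) t ht
  refine ⟨γ, ?_, ?_⟩
  · rw [hag 0 0 (by norm_num)]
    exact h0 0
  · intro t _
    have hm : |t| < (⌈|t|⌉₊ : ℝ) + 1 := (Nat.le_ceil _).trans_lt (lt_add_one _)
    rw [abs_lt] at hm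
    exact (h1 ⌈|t|⌉₊).congr isOpen_Ioo (fun s hs => hag _ s hs) t hm

section Flow

variable [FiniteDimensional ℝ V] [CompactSpace P] [T2Space P] (X)

/-- the flow of a vector field -/
def flow (t : ℝ) (p : P) : P := (exists_global X p).choose t

theorem flow_zero (p : P) : flow X 0 p = p := (exists_global X p).choose_spec.1

theorem isInt_flow (p : P) : IsInt X (fun t => flow X t p) univ :=
  (exists_global X p).choose_spec.2

/-- uniqueness -/
theorem eq_flow {γ : ℝ → P} {a b : ℝ} (h : IsInt X γ (Ioo a b)) (h0 : (0 : ℝ) ∈ Ioo a b) {t : ℝ}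
    (ht : t ∈ Ioo a b) : γ t = flow X t (γ 0) :=
  IsInt.unique h ((isInt_flow X (γ 0)).mono (subset_univ _)) h0 (flow_zero X _).symm t ht

theorem eq_flow_univ {γ : ℝ → P} (h : IsInt X γ univ) (t : ℝ) : γ t = flow X t (γ 0) :=
  eq_flow X (a := -(|t| + 1)) (b := |t| + 1) (h.mono (subset_univ _))
    ⟨by linarith [abs_nonneg t], by linarith [abs_nonneg t]⟩
    ⟨by linarith [neg_abs_le t], by linarith [le_abs_self t]⟩

theorem flow_flow (s t : ℝ) (p : P) : flow X s (flow X t p) = flow X (s + t) p := by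
  have h := eq_flow_univ X (γ := fun r => flow X (r + t) p)
    (((isInt_flow X p).shift t).mono (fun r _ => mem_univ _)) s
  rw [zero_add] at h
  exact h.symm

theorem flow_neg_flow (t : ℝ) (p : P) : flow X (-t) (flow X t p) = p := by
  rw [flow_flow, neg_add_cancel, flow_zero]

/-- the derivative in every chart -/
theorem hasDerivAt_flow (p : P) (t : ℝ) {i : ι} (h : flow X t p ∈ C.S i) :
    HasDerivAt (fun s => C.c i (flow X s p)) (X.f i (C.c i (flow X t p))) t :=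
  (isInt_flow X p t (mem_univ t)).2 i h

theorem continuous_flow_left (p : P) : Continuous (fun t => flow X t p) :=
  continuous_iff_continuousAt.2 fun t => (isInt_flow X p t (mem_univ t)).1

/-- the flow near time `0` in a chart: continuity and smoothness -/
theorem exists_small : ∃ ε > 0, ∀ (p : P) (t : ℝ), |t| < ε →
    ContinuousAt (fun q : ℝ × P => flow X q.1 q.2) (t, p) ∧
    ∀ {F : Type} [NormedAddCommGroup F] [NormedSpace ℝ F] [FiniteDimensional ℝ F]
      {u : F → ℝ × P} {x : F}, u x = (t, p) → ((Dif.lin ℝ).prod C.dif).At u x →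
        C.dif.At (fun y => flow X (u y).1 (u y).2) x := by
  choose i ε N Φ W hε hN hp hW hs h using fun p₀ => exists_local X p₀
  obtain ⟨t, ht⟩ := isCompact_univ.elim_finite_subcover (fun p₀ => N p₀) hN
    (fun p _ => mem_iUnion.2 ⟨p, hp p⟩)
  have hex : ∃ δ > 0, ∀ p₀ ∈ t, δ ≤ ε p₀ := by
    by_cases hne : t.Nonempty
    · obtain ⟨q, hq, hmin⟩ := t.exists_min_image ε hne
      exact ⟨ε q, hε q, hmin⟩
    · exact ⟨1, one_pos, fun p₀ h => absurd ⟨p₀, h⟩ hne⟩
  obtain ⟨δ, hδ, hle⟩ := hex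
  refine ⟨δ, hδ, fun p r hr => ?_⟩
  have hpu := ht (mem_univ p)
  simp only [mem_iUnion] at hpu
  obtain ⟨p₀, hp₀, hpN⟩ := hpu
  have hr' : r ∈ Ioo (-ε p₀) (ε p₀) := by
    have := hle p₀ hp₀
    rw [abs_lt] at hr
    exact ⟨by linarith [hr.1], by linarith [hr.2]⟩
  set j := i p₀ with hj
  -- the flow equals the local flow
  have heq : ∀ q ∈ N p₀, ∀ s ∈ Ioo (-ε p₀) (ε p₀),
      flow X s q = C.inv j (Φ p₀ s (C.c j q)) ∧ flow X s q ∈ C.S j ∧
        C.c j (flow X s q) = Φ p₀ s (C.c j q) := by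
    intro q hq s hs'
    obtain ⟨h1, h2, h3, h4, h5⟩ := h p₀ q hq
    have e1 := eq_flow X h4 (by constructor <;> linarith [hε p₀]) hs'
    simp only [h3, C.left _ q h1] at e1
    rw [← e1]
    exact ⟨rfl, h5 s hs'⟩
  have hO : IsOpen (Ioo (-ε p₀) (ε p₀) ×ˢ W p₀) := isOpen_Ioo.prod (hW p₀)
  have hopen : IsOpen (Ioo (-ε p₀) (ε p₀) ×ˢ N p₀) := isOpen_Ioo.prod (hN p₀)
  have hcontall : ContinuousOn (fun q : ℝ × P => flow X q.1 q.2)
      (Ioo (-ε p₀) (ε p₀) ×ˢ N p₀) := by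
    have h1 : ContinuousOn (fun q : ℝ × P => C.inv j (Φ p₀ q.1 (C.c j q.2)))
        (Ioo (-ε p₀) (ε p₀) ×ˢ N p₀) := by
      have h2 : ContinuousOn (fun q : ℝ × P => Φ p₀ q.1 (C.c j q.2))
          (Ioo (-ε p₀) (ε p₀) ×ˢ N p₀) := by
        refine ContinuousOn.comp (g := fun q : ℝ × V => Φ p₀ q.1 q.2)
          (f := fun q : ℝ × P => (q.1, C.c j q.2)) (hs p₀).continuousOn ?_ ?_
        · refine continuousOn_fst.prodMk ?_
          refine ContinuousOn.comp (g := C.c j) (f := Prod.snd) (C.cont j) continuousOn_snd ?_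
          intro q hq
          exact (h p₀ q.2 hq.2).1
        · intro q hq
          exact ⟨hq.1, (h p₀ q.2 hq.2).2.1⟩
      refine ContinuousOn.comp (g := C.inv j) (C.contI j) h2 ?_
      intro q hq
      have h3 := heq q.2 hq.2 q.1 hq.1
      exact ⟨flow X q.1 q.2, h3.2.1, h3.2.2⟩
    refine h1.congr fun q hq => (heq q.2 hq.2 q.1 hq.1).1
  refine ⟨hcontall.continuousAt (hopen.mem_nhds ⟨hr', hpN⟩), ?_⟩
  intro F _ _ _ u x hux hu
  have hu1 : Sm (fun y => (u y).1) x := hu.1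
  have hu2 : C.dif.At (fun y => (u y).2) x := hu.2
  refine C.at_of ?_
  have hcu : ContinuousAt u x := hu1.continuousAt.prodMk (C.at_cont hu2)
  have hmem : Ioo (-ε p₀) (ε p₀) ×ˢ N p₀ ∈ 𝓝 (u x) := by
    rw [hux]
    exact hopen.mem_nhds ⟨hr', hpN⟩
  filter_upwards [hu1.eventually, C.dif.open' hu2, hcu.eventually hmem, hu1, hu2] with y h1 h2 h3
    h4 h5
  have hcy : ContinuousAt u y := h4.continuousAt.prodMk h5.1
  have hmem' : Ioo (-ε p₀) (ε p₀) ×ˢ N p₀ ∈ 𝓝 (u y) := hopen.mem_nhds h3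
  refine ⟨ContinuousAt.comp (g := fun q : ℝ × P => flow X q.1 q.2) (f := u)
    (hcontall.continuousAt hmem') hcy, j, (heq _ h3.2 _ h3.1).2.1, ?_⟩
  have h6 : ContDiffAt ℝ ∞ (fun z => C.c j (u z).2) y := h5.2 j (h p₀ _ h3.2).1
  have h7 : ContDiffAt ℝ ∞ (fun z => ((u z).1, C.c j (u z).2)) y := h4.prodMk h6
  have h8 : ContDiffAt ℝ ∞ (fun q : ℝ × V => Φ p₀ q.1 q.2) ((u y).1, C.c j (u y).2) :=
    (hs p₀).contDiffAt (hO.mem_nhds ⟨h3.1, (h p₀ _ h3.2).2.1⟩)
  have h9 : ContDiffAt ℝ ∞ (fun z => Φ p₀ (u z).1 (C.c j (u z).2)) y :=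
    ContDiffAt.comp (g := fun q : ℝ × V => Φ p₀ q.1 q.2)
      (f := fun z => ((u z).1, C.c j (u z).2)) y h8 h7
  refine h9.congr_of_eventuallyEq ?_
  filter_upwards [hcy.eventually hmem'] with z hz
  exact (heq _ hz.2 _ hz.1).2.2

theorem flow_nsmul (n : ℕ) (t : ℝ) (p : P) : flow X (n * t) p = (flow X t)^[n] p := by
  induction n with
  | zero => simp [flow_zero]
  | succ n ih =>
    rw [Function.iterate_succ_apply', ← ih, flow_flow]
    congr 1
    push_cast
    ring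

theorem flow_div (n : ℕ) (hn : n ≠ 0) (t : ℝ) (p : P) :
    flow X t p = (flow X (t / n))^[n] p := by
  rw [← flow_nsmul]
  congr 1
  field_simp

/-- joint continuity of the flow -/
theorem continuous_flow : Continuous (fun q : ℝ × P => flow X q.1 q.2) := by
  obtain ⟨ε, hε, h⟩ := exists_small X
  rw [continuous_iff_continuousAt]
  rintro ⟨t, p⟩
  obtain ⟨n, hn⟩ := exists_nat_gt (|t| / ε)
  have hn0 : n ≠ 0 := by
    rintro rfl
    have : 0 ≤ |t| / ε := by positivity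
    simp only [CharP.cast_eq_zero] at hn
    linarith
  have hn1 : (0 : ℝ) < n := Nat.cast_pos.2 (Nat.pos_of_ne_zero hn0)
  have hsm : |t / n| < ε := by
    rw [abs_div, Nat.abs_cast, div_lt_iff₀ hn1]
    rw [div_lt_iff₀ hε] at hn
    linarith
  have key : ∀ m : ℕ, ContinuousAt (fun q : ℝ × P => (flow X (q.1 / n))^[m] q.2) (t, p) := by
    intro m
    induction m with
    | zero =>
      simp only [Function.iterate_zero, id_eq]
      exact continuousAt_snd
    | succ m ih =>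
      simp only [Function.iterate_succ_apply']
      have h1 : ContinuousAt (fun q : ℝ × P => (q.1 / (n : ℝ), (flow X (q.1 / n))^[m] q.2))
          (t, p) := (continuousAt_fst.div_const _).prodMk ih
      exact ContinuousAt.comp (g := fun q : ℝ × P => flow X q.1 q.2)
        (f := fun q : ℝ × P => (q.1 / (n : ℝ), (flow X (q.1 / n))^[m] q.2)) (h _ _ hsm).1 h1
  refine (key n).congr (Eventually.of_forall fun q => ?_)
  exact (flow_div X n hn0 q.1 q.2).symm

theorem continuous_flow_right (t : ℝ) : Continuous (flow X t) :=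
  (continuous_flow X).comp (Continuous.prodMk_right t)

/-- **joint smoothness of the flow** -/
theorem map_flow : ((Dif.lin ℝ).prod C.dif).Map C.dif (fun q : ℝ × P => flow X q.1 q.2) := by
  obtain ⟨ε, hε, h⟩ := exists_small X
  intro F _ _ _ u x hu
  have hu1 : Sm (fun y => (u y).1) x := hu.1
  set t := (u x).1 with ht
  obtain ⟨n, hn⟩ := exists_nat_gt (|t| / ε)
  have hn0 : n ≠ 0 := by
    rintro rfl
    have : 0 ≤ |t| / ε := by positivity
    simp only [CharP.cast_eq_zero] at hn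
    linarith
  have hn1 : (0 : ℝ) < n := Nat.cast_pos.2 (Nat.pos_of_ne_zero hn0)
  have hsm : |t / n| < ε := by
    rw [abs_div, Nat.abs_cast, div_lt_iff₀ hn1]
    rw [div_lt_iff₀ hε] at hn
    linarith
  have hs' : Sm (fun y => (u y).1 / (n : ℝ)) x := by
    filter_upwards [hu1] with y hy using hy.div_const _
  have key : ∀ m : ℕ, C.dif.At (fun y => (flow X ((u y).1 / n))^[m] (u y).2) x := by
    intro m
    induction m with
    | zero =>
      simp only [Function.iterate_zero, id_eq]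
      exact hu.2
    | succ m ih =>
      simp only [Function.iterate_succ_apply']
      exact (h ((flow X ((u x).1 / n))^[m] (u x).2) ((u x).1 / n) hsm).2
        (u := fun y => ((u y).1 / (n : ℝ), (flow X ((u y).1 / n))^[m] (u y).2)) rfl ⟨hs', ih⟩
  refine C.dif.congr (key n) (Eventually.of_forall fun y => ?_)
  exact (flow_div X n hn0 (u y).1 (u y).2).symm

/-- at a fixed time the flow is smooth -/
theorem map_flow_right (t : ℝ) : C.dif.Map C.dif (flow X t) := by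
  intro F _ _ _ u x hu
  exact map_flow X (u := fun y => (t, u y)) ⟨Sm.const t x, hu⟩

/-- flow and a parameter: `(p, t) ↦ flow t p` -/
theorem map_flow' : (C.dif.prod (Dif.lin ℝ)).Map C.dif (fun q : P × ℝ => flow X q.2 q.1) := by
  intro F _ _ _ u x hu
  exact map_flow X (u := fun y => ((u y).2, (u y).1)) ⟨hu.2, hu.1⟩

/-- constants are plots of `P` -/
theorem at_const (p : P) : C.dif.At (fun _ : ℝ => p) 0 := by
  refine Eventually.of_forall fun y => ⟨continuousAt_const, fun i _ => contDiffAt_const⟩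

variable {W : Type} [NormedAddCommGroup W] [NormedSpace ℝ W]

/-- the derivative of a function along the flow -/
def D (f : P → W) (p : P) : W := deriv (fun t => f (flow X t p)) 0

variable {X}

theorem map_comp_flow {f : P → W} (hf : C.dif.Map (Dif.lin W) f) :
    (C.dif.prod (Dif.lin ℝ)).Map (Dif.lin W) (fun q : P × ℝ => f (flow X q.2 q.1)) :=
  hf.comp' (map_flow' X)

theorem contDiff_flow {f : P → W} (hf : C.dif.Map (Dif.lin W) f) (p : P) :
    ContDiff ℝ ∞ (fun t => f (flow X t p)) :=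
  Dif.contDiff_slice (map_comp_flow hf) (at_const p)

/-- smooth functions have smooth derivatives along the flow -/
theorem map_D {f : P → W} (hf : C.dif.Map (Dif.lin W) f) : C.dif.Map (Dif.lin W) (D X f) := by
  intro F _ _ _ u x hu
  have h0 : (C.dif.prod (Dif.lin ℝ)).At (fun y => (u y, (0 : ℝ))) x := ⟨hu, Sm.const 0 x⟩
  have h1 := Dif.map_deriv (map_comp_flow (X := X) hf) h0
  exact h1

theorem hasDerivAt_D {f : P → W} (hf : C.dif.Map (Dif.lin W) f) (p : P) (t : ℝ) :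
    HasDerivAt (fun s => f (flow X s p)) (D X f (flow X t p)) t := by
  have h1 : HasDerivAt (fun s => f (flow X s (flow X t p))) (D X f (flow X t p)) 0 :=
    ((contDiff_flow hf (flow X t p)).differentiable (by simp) 0).hasDerivAt
  have h2 : HasDerivAt (fun s => f (flow X (s - t) (flow X t p))) (D X f (flow X t p)) t := by
    have h3 : HasDerivAt (fun s => f (flow X s (flow X t p))) (D X f (flow X t p)) (t - t) := by
      rw [sub_self]
      exact h1
    exact h3.comp_sub_const t t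
  refine h2.congr_of_eventuallyEq (Eventually.of_forall fun s => ?_)
  simp only [flow_flow, sub_add_cancel]

end Flow

/-- local sections: `P` is locally a retract of the coordinate space -/
def HasSec (C : CSys ι V P) [FiniteDimensional ℝ V] : Prop :=
  ∀ p : P, ∃ i, p ∈ C.S i ∧ ∃ r : V → P, C.dif.At r (C.c i p) ∧ ∀ᶠ q in 𝓝 p, r (C.c i q) = q

/-- smooth functions are continuous -/
theorem HasSec.continuous [FiniteDimensional ℝ V] (h : HasSec C) {W : Type}
    [NormedAddCommGroup W] [NormedSpace ℝ W] {f : P → W} (hf : C.dif.Map (Dif.lin W) f) :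
    Continuous f := by
  rw [continuous_iff_continuousAt]
  intro p
  obtain ⟨i, hi, r, hr, hev⟩ := h p
  have h1 : Sm (f ∘ r) (C.c i p) := hf hr
  have h2 : ContinuousAt (fun q => (f ∘ r) (C.c i q)) p :=
    ContinuousAt.comp (g := f ∘ r) (f := C.c i) h1.continuousAt (C.contAt_c hi)
  refine h2.congr ?_
  filter_upwards [hev] with q hq
  simp only [Function.comp_apply, hq]

/-- jointly smooth functions with parameters are continuous -/
theorem HasSec.continuous_param [FiniteDimensional ℝ V] (h : HasSec C) {W Y : Type}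
    [NormedAddCommGroup W] [NormedSpace ℝ W] [NormedAddCommGroup Y] [NormedSpace ℝ Y]
    [FiniteDimensional ℝ Y] {f : P × Y → W}
    (hf : (C.dif.prod (Dif.lin Y)).Map (Dif.lin W) f) : Continuous f := by
  rw [continuous_iff_continuousAt]
  rintro ⟨p, y⟩
  obtain ⟨i, hi, r, hr, hev⟩ := h p
  have h1 : Sm (fun q : V × Y => f (r q.1, q.2)) (C.c i p, y) :=
    hf (u := fun q : V × Y => (r q.1, q.2))
      ⟨C.dif.comp (u := r) (g := Prod.fst) (x := ((C.c i p, y) : V × Y)) hr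
        (Sm.of_contDiff contDiff_fst _), Sm.of_contDiff contDiff_snd _⟩
  have h2 : ContinuousAt (fun q : P × Y => (C.c i q.1, q.2)) (p, y) :=
    (ContinuousAt.comp (g := C.c i) (f := Prod.fst) (C.contAt_c hi) continuousAt_fst).prodMk
      continuousAt_snd
  have h3 : ContinuousAt (fun q : P × Y => (fun q : V × Y => f (r q.1, q.2)) (C.c i q.1, q.2))
      (p, y) :=
    ContinuousAt.comp (g := fun q : V × Y => f (r q.1, q.2))
      (f := fun q : P × Y => (C.c i q.1, q.2)) h1.continuousAt h2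
  refine h3.congr ?_
  have h4 : ∀ᶠ q : P × Y in 𝓝 (p, y), r (C.c i q.1) = q.1 :=
    (continuousAt_fst (p := ((p, y) : P × Y))).eventually hev
  filter_upwards [h4] with q hq
  simp only [hq, Prod.mk.eta]

end CSys

end

end Vale.Agent.P207.Q.Fl
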