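import Vale.Agent.P207.Q.Flow
import Vale.Agent.P207.Q.H916.Fr5
import Vale.Agent.P207.Q.H916.Fr6

/-!
# P207 / Q: the frame bundle as a coordinate system, the horizontal flows, smooth functions

`frSys g : CSys M (St (Fin n) n) (Fr g)`; `horVF g ξ`: the horizontal fields; their flows are
`IsHorFlow` and jointly smooth; smooth functions in the sense of plots are the functions which are
smooth in the charts after the Gram-Schmidt retraction. (helper858)
-/

open scoped Manifold ContDiff ENNReal Topology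
open Bundle MeasureTheory Set Filter Topology

noncomputable section

set_option maxSynthPendingDepth 3
set_option linter.unusedSectionVars false

namespace Vale.Agent.P207.Q

open Vale.Agent.P255 (RMetric coefIn Gam Riem IsGeo Metric Npc ExpSys toMetric geo expg cc trans
  IsGeodesic coefL chris chrisB IsMetricOn covD)
open Fl

variable {n : ℕ} {M : Type} [TopologicalSpace M] [ChartedSpace (EV n) M]
  [IsManifold 𝓘(ℝ, EV n) ∞ M]

/-- transition between the charts at `a` and `b` of the bundle of frames -/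
def trF {ι : Type} (a b : M) (y : St ι n) : St ι n :=
  (trans (EV n) a b y.1, fun i => fderiv ℝ (trans (EV n) a b) y.1 (y.2 i))

theorem contDiffAt_trF {ι : Type} [Fintype ι] (a b : M) {y : St ι n}
    (hy : y.1 ∈ (chartAt (EV n) a).target)
    (hb : (chartAt (EV n) a).symm y.1 ∈ (chartAt (EV n) b).source) :
    ContDiffAt ℝ ∞ (trF a b) y := by
  have h0 := P255.contDiffAt_trans a b hy hb
  have h1 : ContDiffAt ℝ ∞ (fun y : St ι n => trans (EV n) a b y.1) y :=
    h0.comp y contDiffAt_fst
  have h2 : ContDiffAt ℝ ∞ (fun y : St ι n => fderiv ℝ (trans (EV n) a b) y.1) y :=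
    (h0.fderiv_right (m := ∞) (by simp)).comp y contDiffAt_fst
  refine h1.prodMk ?_
  rw [contDiffAt_pi]
  intro i
  have h3 : ContDiffAt ℝ ∞ (fun y : St ι n => y.2 i) y :=
    ((ContinuousLinearMap.proj (R := ℝ) (φ := fun _ : ι => EV n) i).contDiff.comp
      contDiff_snd).contDiffAt
  exact h2.clm_apply h3

variable (g : RMetric (EV n) M)

theorem fderiv_trF_hF (a b : M) (ξ : Fin n → ℝ) {y : St (Fin n) n}
    (hu : y.1 ∈ (chartAt (EV n) a).target)
    (hs : (chartAt (EV n) a).symm y.1 ∈ (chartAt (EV n) b).source) :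
    fderiv ℝ (trF a b) y (hF ((mt g).coef a) ξ y) = hF ((mt g).coef b) ξ (trF a b y) := by
  obtain ⟨Y, hY0, hY⟩ : ∃ Y : ℝ → St (Fin n) n, Y 0 = y ∧
      HasDerivAt Y (hF ((mt g).coef a) ξ y) 0 := by
    refine ⟨fun t => y + t • hF ((mt g).coef a) ξ y, by simp, ?_⟩
    have h1 := ((hasDerivAt_id (0 : ℝ)).smul_const (hF ((mt g).coef a) ξ y)).const_add y
    simpa using h1
  have h3 := hasDerivAt_hF_trans ((mt g).isMetricOn a) ((mt g).isMetricOn b)
    (τ := trans (EV n) a b) (y := Y) (t := 0)
    (by rw [hY0]; exact hu)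
    (by rw [hY0]; exact (chartAt (EV n) b).map_source hs)
    (by rw [hY0]; exact P255.contDiffAt_trans a b hu hs) (by
      rw [hY0]
      filter_upwards [P255.eventually_trans a b hu hs] with x hx
      exact (mt g).compat a b x hx.1 hx.2) (ξ := ξ) (by rw [hY0]; exact hY)
  rw [hY0] at h3
  have h4 : HasDerivAt (fun t : ℝ => trF a b (Y t))
      (fderiv ℝ (trF a b) y (hF ((mt g).coef a) ξ y)) 0 :=
    HasFDerivAt.comp_hasDerivAt_of_eq (l := trF a b) 0
      ((contDiffAt_trF a b hu hs).differentiableAt (by simp)).hasFDerivAt hY hY0.symm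
  exact h4.unique h3

theorem trF_chF (a b : M) (f : Fr g) (ha : f.pt ∈ (chartAt (EV n) a).source)
    (hb : f.pt ∈ (chartAt (EV n) b).source) : trF a b (chF a f.1) = chF b f.1 := by
  have h1 : (chartAt (EV n) a).symm (chF a f.1).1 = f.1.pt := (chartAt (EV n) a).left_inv ha
  have h2 := chF_chFs_trans a b (y := chF a f.1) ((chartAt (EV n) a).map_source ha)
    (by rw [h1]; exact hb)
  rw [chFs_chF a ha] at h2
  exact h2.symm

theorem symm_chF (a b : M) (f : Fr g) (ha : f.pt ∈ (chartAt (EV n) a).source)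
    (hb : f.pt ∈ (chartAt (EV n) b).source) :
    (chartAt (EV n) a).symm (chF a f.1).1 ∈ (chartAt (EV n) b).source := by
  have h1 : (chartAt (EV n) a).symm (chF a f.1).1 = f.1.pt := (chartAt (EV n) a).left_inv ha
  rw [h1]
  exact hb

theorem orth_chFg (f : Fr g) (a : M) (h : f.pt ∈ (chartAt (EV n) a).source) :
    Orth ((mt g).coef a (chF a f.1).1) (chF a f.1).2 := fun i j =>
  (inner_chF g a h i j).trans (f.2 i j)

/-- the frame with state `y` in the chart at `a` -/
def mkFr (a : M) (y : St (Fin n) n) (hy : y.1 ∈ (chartAt (EV n) a).target)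
    (ho : Orth ((mt g).coef a y.1) y.2) : Fr g :=
  ⟨chFs a y, fun i j => (inner_chFs g a hy i j).trans (ho i j)⟩

theorem chF_mkFr (a : M) (y : St (Fin n) n) (hy : y.1 ∈ (chartAt (EV n) a).target)
    (ho : Orth ((mt g).coef a y.1) y.2) : chF a (mkFr g a y hy ho).1 = y := chF_chFs a hy

theorem mkFr_pt (a : M) (y : St (Fin n) n) (hy : y.1 ∈ (chartAt (EV n) a).target)
    (ho : Orth ((mt g).coef a y.1) y.2) : (mkFr g a y hy ho).pt ∈ (chartAt (EV n) a).source :=
  (chartAt (EV n) a).map_target hy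

theorem image_chF (a : M) :
    (fun f : Fr g => chF a f.1) '' {f | f.pt ∈ (chartAt (EV n) a).source} =
      {y | y.1 ∈ (chartAt (EV n) a).target ∧ Orth ((mt g).coef a y.1) y.2} := by
  ext y
  constructor
  · rintro ⟨f, hf, rfl⟩
    exact ⟨(chartAt (EV n) a).map_source hf, orth_chFg g f a hf⟩
  · rintro ⟨h1, h2⟩
    exact ⟨mkFr g a y h1 h2, mkFr_pt g a y h1 h2, chF_mkFr g a y h1 h2⟩

variable [Nonempty (Fr g)]

open Classical in
/-- the frame with state `y` in the chart at `a` (junk if `y` is not orthonormal) -/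
def invF (a : M) (y : St (Fin n) n) : Fr g :=
  if h : y.1 ∈ (chartAt (EV n) a).target ∧ Orth ((mt g).coef a y.1) y.2 then mkFr g a y h.1 h.2
  else Classical.arbitrary _

theorem invF_eq (a : M) (y : St (Fin n) n) (hy : y.1 ∈ (chartAt (EV n) a).target)
    (ho : Orth ((mt g).coef a y.1) y.2) : invF g a y = mkFr g a y hy ho := dif_pos ⟨hy, ho⟩

theorem invF_val (a : M) (y : St (Fin n) n) (hy : y.1 ∈ (chartAt (EV n) a).target)
    (ho : Orth ((mt g).coef a y.1) y.2) : (invF g a y).1 = chFs a y := by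
  rw [invF_eq g a y hy ho]
  rfl

theorem invF_chF (a : M) (f : Fr g) (h : f.pt ∈ (chartAt (EV n) a).source) :
    invF g a (chF a f.1) = f := by
  refine Subtype.ext ?_
  rw [invF_val g a _ ((chartAt (EV n) a).map_source h) (orth_chFg g f a h)]
  exact chFs_chF a h

theorem chF_invF (a : M) (y : St (Fin n) n) (hy : y.1 ∈ (chartAt (EV n) a).target)
    (ho : Orth ((mt g).coef a y.1) y.2) : chF a (invF g a y).1 = y := by
  rw [invF_val g a y hy ho]
  exact chF_chFs a hy

theorem invF_pt (a : M) (y : St (Fin n) n) (hy : y.1 ∈ (chartAt (EV n) a).target)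
    (ho : Orth ((mt g).coef a y.1) y.2) : (invF g a y).pt ∈ (chartAt (EV n) a).source := by
  rw [invF_eq g a y hy ho]
  exact mkFr_pt g a y hy ho

variable [NeZero n]

/-- the frame bundle with its charts -/
def frSys : CSys M (St (Fin n) n) (Fr g) where
  S a := {f | f.pt ∈ (chartAt (EV n) a).source}
  O a := (chartAt (EV n) a).target ×ˢ univ
  c a f := chF a f.1
  inv a y := invF g a y
  τ a b := trF a b
  W a b := {y | y.1 ∈ (chartAt (EV n) a).target ∩
    (chartAt (EV n) a).symm ⁻¹' (chartAt (EV n) b).source}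
  isOpen_S a := (chartAt (EV n) a).open_source.preimage Fr.continuous_pt
  isOpen_O a := (chartAt (EV n) a).open_target.prod isOpen_univ
  cover f := ⟨f.pt, mem_chart_source _ _⟩
  mem_O a f h := ⟨(chartAt (EV n) a).map_source h, mem_univ _⟩
  left a f h := invF_chF g a f h
  cont a := fun f h => ((continuousAt_chF a (f := f.1) h).comp
    Fr.continuous_val.continuousAt).continuousWithinAt
  contI a := by
    have h0 : (fun f : Fr g => chF a f.1) '' {f | f.pt ∈ (chartAt (EV n) a).source} =
      {y | y.1 ∈ (chartAt (EV n) a).target ∧ Orth ((mt g).coef a y.1) y.2} := image_chF g a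
    change ContinuousOn (invF g a)
      ((fun f : Fr g => chF a f.1) '' {f | f.pt ∈ (chartAt (EV n) a).source})
    rw [h0, continuousOn_iff_continuous_domRestrict]
    refine Continuous.subtype_mk (f := fun y : {y : St (Fin n) n //
      y.1 ∈ (chartAt (EV n) a).target ∧ Orth ((mt g).coef a y.1) y.2} => (invF g a y.1).1) ?_ _
    have h1 : (fun y : {y : St (Fin n) n //
        y.1 ∈ (chartAt (EV n) a).target ∧ Orth ((mt g).coef a y.1) y.2} => (invF g a y.1).1) =
        fun y => chFs a y.1 := by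
      funext y
      exact invF_val g a y.1 y.2.1 y.2.2
    rw [h1, continuous_iff_continuousAt]
    intro y
    exact ContinuousAt.comp (g := chFs a) (continuousAt_chFs a y.2.1)
      continuous_subtype_val.continuousAt
  isOpen_W a b := ((chartAt (EV n) a).isOpen_inter_preimage_symm
    (chartAt (EV n) b).open_source).preimage continuous_fst
  smooth_τ a b := fun y hy => (contDiffAt_trF a b hy.1 hy.2).contDiffWithinAt
  mem_W a b f ha hb := ⟨(chartAt (EV n) a).map_source ha, symm_chF g a b f ha hb⟩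
  τ_c a b f ha hb := trF_chF g a b f ha hb

/-- the horizontal vector fields -/
def horVF (ξ : Fin n → ℝ) : (frSys g).VF where
  f a := hF ((mt g).coef a) ξ
  smooth a := contDiffOn_hF ((mt g).isMetricOn a) ξ
  compat a b f ha hb := by
    have h1 := fderiv_trF_hF g a b ξ (y := chF a f.1) ((chartAt (EV n) a).map_source ha)
      (symm_chF g a b f ha hb)
    rw [trF_chF g a b f ha hb] at h1
    exact h1
  pres a y r s hr hs h0 h := by
    have hI : (frSys g).c a '' (frSys g).S a =
        {y | y.1 ∈ (chartAt (EV n) a).target ∧ Orth ((mt g).coef a y.1) y.2} := image_chF g a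
    rw [hI] at h0 ⊢
    intro t ht
    refine ⟨(h t ht).1.1, fun i j => ?_⟩
    have hd : ∀ t ∈ Ioo r s,
        HasDerivAt (fun r => ((mt g).coef a (y r).1 ((y r).2 i) ((y r).2 j) : ℝ)) 0 t :=
      fun t ht => hasDerivAt_inner_hF ((mt g).isMetricOn a) (h t ht).1.1 (h t ht).2 i j
    have h1 : DifferentiableOn ℝ
        (fun r => ((mt g).coef a (y r).1 ((y r).2 i) ((y r).2 j) : ℝ)) (Ioo r s) :=
      fun t ht => (hd t ht).differentiableAt.differentiableWithinAt
    have h2 := isOpen_Ioo.is_const_of_deriv_eq_zero isPreconnected_Ioo h1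
      (fun t ht => (hd t ht).deriv) ht (y := 0) ⟨hr, hs⟩
    exact h2.trans (h0.2 i j)

section Flows

variable [CompactSpace M] [T2Space M]

/-- **existence of the horizontal flows** -/
theorem isHorFlow_flow (ξ : Fin n → ℝ) : IsHorFlow g ξ (CSys.flow (horVF g ξ)) := by
  intro f
  refine ⟨CSys.flow_zero _ f, ⟨fun t _ => ?_, fun a t _ ha => ?_⟩⟩
  · exact ContinuousAt.comp (g := Subtype.val) (f := fun t => CSys.flow (horVF g ξ) t f)
      Fr.continuous_val.continuousAt (CSys.isInt_flow (horVF g ξ) f t (mem_univ t)).1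
  · exact CSys.hasDerivAt_flow (horVF g ξ) f t (i := a) ha

variable {g}

theorem IsHorFlow.eq_flow {ξ : Fin n → ℝ} {Φ : ℝ → Fr g → Fr g} (h : IsHorFlow g ξ Φ) :
    Φ = CSys.flow (horVF g ξ) := h.unique (isHorFlow_flow g ξ)

/-- horizontal flows are jointly smooth -/
theorem IsHorFlow.map {ξ : Fin n → ℝ} {Φ : ℝ → Fr g → Fr g} (h : IsHorFlow g ξ Φ) :
    ((Dif.lin ℝ).prod (frSys g).dif).Map (frSys g).dif (fun q : ℝ × Fr g => Φ q.1 q.2) := by
  rw [h.eq_flow]
  exact CSys.map_flow (horVF g ξ)

theorem IsHorFlow.continuous {ξ : Fin n → ℝ} {Φ : ℝ → Fr g → Fr g} (h : IsHorFlow g ξ Φ) :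
    Continuous (fun q : ℝ × Fr g => Φ q.1 q.2) := by
  rw [h.eq_flow]
  exact CSys.continuous_flow (horVF g ξ)

end Flows

/-! ### the right action -/

section Rot

variable {g}

/-- the action of the orthogonal group with smooth parameters -/
theorem map_rot_param {X : Type} {D : Dif X} {A : X → Fr.On n}
    (hA : ∀ i j, D.Map (Dif.lin ℝ) (fun x => (A x).1 i j)) {u : X → Fr g}
    (hu : D.Map (frSys g).dif u) : D.Map (frSys g).dif (fun x => Fr.rot (A x) (u x)) := by
  intro F _ _ _ v x hv
  have h1 : ∀ i j, Sm (fun y => (A (v y)).1 i j) x := fun i j => hA i j hv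
  have h2 : (frSys g).dif.At (fun y => u (v y)) x := hu hv
  have h3 : ∀ᶠ y in 𝓝 x, ∀ i j, ContDiffAt ℝ ∞ (fun y => (A (v y)).1 i j) y :=
    eventually_all.2 fun i => eventually_all.2 fun j => h1 i j
  refine (frSys g).at_of ?_
  filter_upwards [h3, h2] with y hy1 hy2
  have hAc : ContinuousAt (fun y => A (v y)) y := by
    refine IsInducing.subtypeVal.continuousAt_iff.2 ?_
    exact continuousAt_pi.2 fun i => continuousAt_pi.2 fun j => (hy1 i j).continuousAt
  refine ⟨ContinuousAt.comp (g := fun q : Fr.On n × Fr g => Fr.rot q.1 q.2)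
    (f := fun y => (A (v y), u (v y))) Fr.continuous_rot.continuousAt (hAc.prodMk hy2.1),
    (u (v y)).pt, ?_, ?_⟩
  · exact mem_chart_source (EV n) (u (v y)).pt
  · have h4 : ContDiffAt ℝ ∞ (fun z => chF (u (v y)).pt (u (v z)).1) y :=
      hy2.2 (u (v y)).pt (mem_chart_source (EV n) (u (v y)).pt)
    have h5 : ∀ z, (frSys g).c (u (v y)).pt (Fr.rot (A (v z)) (u (v z))) =
        ((chF (u (v y)).pt (u (v z)).1).1,
          fun j => ∑ i, (A (v z)).1 i j • (chF (u (v y)).pt (u (v z)).1).2 i) := fun z =>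
      chF_mulR (u (v y)).pt (A (v z)).1 (u (v z)).1
    change ContDiffAt ℝ ∞ (fun z => (frSys g).c (u (v y)).pt (Fr.rot (A (v z)) (u (v z)))) y
    rw [funext h5]
    refine h4.fst.prodMk ?_
    rw [contDiffAt_pi]
    intro j
    refine ContDiffAt.sum fun i _ => ?_
    exact (hy1 i j).smul (contDiffAt_pi.1 h4.snd i)

theorem map_rot (A : Fr.On n) : (frSys g).dif.Map (frSys g).dif (Fr.rot A) :=
  map_rot_param (A := fun _ => A) (fun _ _ => Dif.map_const _ _) Dif.map_id

/-- the vertical flows are jointly smooth -/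
theorem map_verFlow {A : Matrix (Fin n) (Fin n) ℝ} (hA : IsGen A) :
    ((Dif.lin ℝ).prod (frSys g).dif).Map (frSys g).dif
      (fun q : ℝ × Fr g => verFlow hA q.1 q.2) := by
  have h1 : ∀ i j, ContDiff ℝ ∞ (fun θ : ℝ => rotM A θ i j) := by
    intro i j
    unfold rotM
    simp only [Matrix.add_apply, Matrix.smul_apply, smul_eq_mul]
    fun_prop
  have h2 : ∀ i j, ((Dif.lin ℝ).prod (frSys g).dif).Map (Dif.lin ℝ)
      (fun q : ℝ × Fr g => (hA.on q.1).1 i j) := by
    intro i j F _ _ _ v x hv
    have h3 : Sm (fun y => (v y).1) x := hv.1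
    exact Sm.comp (f := fun θ : ℝ => rotM A θ i j) (g := fun y => (v y).1)
      (Sm.of_contDiff (h1 i j) _) h3
  have h4 : ((Dif.lin ℝ).prod (frSys g).dif).Map (frSys g).dif
      (fun q : ℝ × Fr g => q.2) := by
    intro F _ _ _ v x hv
    exact hv.2
  intro F _ _ _ v x hv
  have h5 := map_rot_param (D := (Dif.lin ℝ).prod (frSys g).dif)
    (A := fun q : ℝ × Fr g => hA.on q.1) (u := fun q : ℝ × Fr g => q.2) h2 h4 hv
  exact h5

end Rot

/-! ### smooth functions -/

section Sm

variable {g}

/-- the Gram-Schmidt retraction is a plot -/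
theorem at_retr (a : M) {y : St (Fin n) n}
    (hy : y ∈ gsDom ((mt g).coef a) (chartAt (EV n) a).target) :
    (frSys g).dif.At (fun z => invF g a (gsSt ((mt g).coef a) z)) y := by
  have hm := (mt g).isMetricOn a
  have hkey : ∀ z ∈ gsDom ((mt g).coef a) (chartAt (EV n) a).target,
      (gsSt ((mt g).coef a) z).1 ∈ (chartAt (EV n) a).target ∧
        Orth ((mt g).coef a (gsSt ((mt g).coef a) z).1) (gsSt ((mt g).coef a) z).2 :=
    fun z hz => ⟨hz.1, orth_gsSt hm hz⟩
  refine (frSys g).at_of ?_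
  filter_upwards [(isOpen_gsDom hm).mem_nhds hy] with z hz
  have hval : ∀ᶠ w in 𝓝 z, (invF g a (gsSt ((mt g).coef a) w)).1 =
      chFs a (gsSt ((mt g).coef a) w) := by
    filter_upwards [(isOpen_gsDom hm).mem_nhds hz] with w hw
    exact invF_val g a _ (hkey w hw).1 (hkey w hw).2
  refine ⟨?_, a, invF_pt g a _ (hkey z hz).1 (hkey z hz).2, ?_⟩
  · refine IsInducing.subtypeVal.continuousAt_iff.2 ?_
    have h1 : ContinuousAt (fun w => chFs a (gsSt ((mt g).coef a) w)) z :=
      ContinuousAt.comp (g := chFs a) (continuousAt_chFs a (hkey z hz).1)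
        (contDiffAt_gsSt hm hz).continuousAt
    exact h1.congr (hval.mono fun w hw => hw.symm)
  · refine (contDiffAt_gsSt hm hz).congr_of_eventuallyEq ?_
    filter_upwards [(isOpen_gsDom hm).mem_nhds hz] with w hw
    exact chF_invF g a _ (hkey w hw).1 (hkey w hw).2

theorem mem_gsDom_chF (a : M) (f : Fr g) (h : f.pt ∈ (chartAt (EV n) a).source) :
    chF a f.1 ∈ gsDom ((mt g).coef a) (chartAt (EV n) a).target :=
  mem_gsDom_of_orth ((chartAt (EV n) a).map_source h) (orth_chFg g f a h)

theorem retr_chF (a : M) (f : Fr g) (h : f.pt ∈ (chartAt (EV n) a).source) :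
    invF g a (gsSt ((mt g).coef a) (chF a f.1)) = f := by
  rw [gsSt_of_orth (orth_chFg g f a h), invF_chF g a f h]

theorem hasSec_frSys : CSys.HasSec (frSys g) := by
  intro f
  have hf : f.pt ∈ (chartAt (EV n) f.pt).source := mem_chart_source _ _
  refine ⟨f.pt, hf, fun z => invF g f.pt (gsSt ((mt g).coef f.pt) z),
    at_retr f.pt (mem_gsDom_chF f.pt f hf), ?_⟩
  filter_upwards [((chartAt (EV n) f.pt).open_source.preimage Fr.continuous_pt).mem_nhds hf]
    with q hq
  exact retr_chF f.pt q hq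

variable {W : Type} [NormedAddCommGroup W] [NormedSpace ℝ W]

/-- smooth functions on the frame bundle: plots and charts -/
theorem map_iff {f : Fr g → W} : (frSys g).dif.Map (Dif.lin W) f ↔
    ∀ a : M, ContDiffOn ℝ ∞ (fun y => f (invF g a (gsSt ((mt g).coef a) y)))
      (gsDom ((mt g).coef a) (chartAt (EV n) a).target) := by
  constructor
  · intro h a y hy
    have h1 : Sm (fun y => f (invF g a (gsSt ((mt g).coef a) y))) y := h (at_retr a hy)
    exact h1.contDiffAt.contDiffWithinAt
  · intro h F _ _ _ u x hu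
    have hx : (u x).pt ∈ (chartAt (EV n) (u x).pt).source := mem_chart_source _ _
    set a := (u x).pt with ha
    have hm := (mt g).isMetricOn a
    have hcu : ContinuousAt u x := (frSys g).at_cont hu
    have hS : ∀ᶠ y in 𝓝 x, (u y).pt ∈ (chartAt (EV n) a).source :=
      hcu.eventually (((chartAt (EV n) a).open_source.preimage Fr.continuous_pt).mem_nhds hx)
    have h1 : Sm (fun y => chF a (u y).1) x := by
      filter_upwards [hS, hu] with y hy1 hy2
      exact hy2.2 a hy1
    have h2 : Sm (fun y => f (invF g a (gsSt ((mt g).coef a) y))) (chF a (u x).1) :=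
      Sm.of_contDiffOn (h a) (isOpen_gsDom hm) (mem_gsDom_chF a (u x) hx)
    have h3 : Sm (fun y => f (invF g a (gsSt ((mt g).coef a) (chF a (u y).1)))) x :=
      Sm.comp (f := fun y => f (invF g a (gsSt ((mt g).coef a) y)))
        (g := fun y => chF a (u y).1) h2 h1
    refine h3.congr ?_
    filter_upwards [hS] with y hy
    rw [retr_chF a (u y) hy]
    rfl

end Sm

end Vale.Agent.P207.Q
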