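import Vale.Agent.P207.Q.FrSys
import Vale.Agent.P207.Q.H916.Fr7

/-!
# P207 / Q: smooth functions on the frame bundle are stable under the flows and the right action,
joint continuity of the derivatives of `f ∘ Φ_r` (helper858)
-/

open scoped Manifold ContDiff ENNReal Topology
open Bundle MeasureTheory Set Filter Topology

noncomputable section

set_option maxSynthPendingDepth 3
set_option linter.unusedSectionVars false

namespace Vale.Agent.P207.Q

open Vale.Agent.P255 (RMetric coefIn Gam Riem IsGeo Metric Npc ExpSys toMetric geo expg cc trans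
  IsGeodesic coefL chris chrisB IsMetricOn covD)
open Fl

variable {n : ℕ} {M : Type} [TopologicalSpace M] [ChartedSpace (EV n) M]
  [IsManifold 𝓘(ℝ, EV n) ∞ M] {g : RMetric (EV n) M}
variable {V W : Type} [NormedAddCommGroup V] [NormedSpace ℝ V] [NormedAddCommGroup W]
  [NormedSpace ℝ W]

/-- composition with a function smooth on an open set which contains the range -/
theorem SmF.comp_on {f : Fr g → V} (hf : SmF f) {F : V → W} {U : Set V} (hU : IsOpen U)
    (hF : ContDiffOn ℝ ∞ F U) (h : ∀ p, f p ∈ U) : SmF (fun p => F (f p)) := by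
  refine SmF.congr_rd (F := fun a y => F (rd f a y))
    (fun a y hy => by rw [rd_of_mem _ hy, rd_of_mem _ hy]) fun a => ?_
  intro y hy
  have h1 : rd f a y ∈ U := by rw [rd_of_mem _ hy]; exact h _
  exact ((hF.contDiffAt (hU.mem_nhds h1)).comp y (hf.contDiffAt hy)).contDiffWithinAt

variable [Nonempty (Fr g)] [NeZero n]

theorem rd_eq_invF (f : Fr g → W) {a : M} {y : St (Fin n) n} (hy : y ∈ dom g a) :
    rd f a y = f (invF g a (gsSt ((mt g).coef a) y)) := by
  rw [rd_of_mem f hy]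
  congr 1
  refine Subtype.ext ?_
  exact (invF_val g a (gsSt ((mt g).coef a) y) hy.1
    (orth_gsSt ((mt g).isMetricOn a) hy)).symm

/-- smooth functions: charts and plots -/
theorem smF_iff_map {f : Fr g → W} : SmF f ↔ (frSys g).dif.Map (Dif.lin W) f := by
  rw [map_iff]
  refine forall_congr' fun a => ?_
  exact contDiffOn_congr fun y hy => rd_eq_invF f hy

theorem SmF.map {f : Fr g → W} (hf : SmF f) {X : Type} {D : Dif X} {u : X → Fr g}
    (hu : D.Map (frSys g).dif u) : D.Map (Dif.lin W) (fun x => f (u x)) := by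
  intro F _ _ _ v x hv
  exact smF_iff_map.1 hf (hu hv)

/-- stability under smooth maps -/
theorem SmF.comp_smooth {f : Fr g → W} (hf : SmF f) {Ψ : Fr g → Fr g}
    (hΨ : (frSys g).dif.Map (frSys g).dif Ψ) : SmF (fun p => f (Ψ p)) :=
  smF_iff_map.2 (hf.map hΨ)

theorem SmF.comp_rot {f : Fr g → W} (hf : SmF f) (A : Fr.On n) :
    SmF (fun p => f (Fr.rot A p)) := hf.comp_smooth (map_rot A)

/-- jointly smooth families of maps of the frame bundle -/
def JSm (Ψ : ℝ → Fr g → Fr g) : Prop :=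
  ((Dif.lin ℝ).prod (frSys g).dif).Map (frSys g).dif (fun q : ℝ × Fr g => Ψ q.1 q.2)

theorem JSm.fix {Ψ : ℝ → Fr g → Fr g} (h : JSm Ψ) (t : ℝ) :
    (frSys g).dif.Map (frSys g).dif (Ψ t) := by
  intro F _ _ _ u x hu
  exact h (u := fun y => (t, u y)) ⟨Sm.const t x, hu⟩

theorem SmF.comp_JSm {f : Fr g → W} (hf : SmF f) {Ψ : ℝ → Fr g → Fr g} (h : JSm Ψ) (t : ℝ) :
    SmF (fun p => f (Ψ t p)) := hf.comp_smooth (h.fix t)

theorem jsm_ver {A : Matrix (Fin n) (Fin n) ℝ} (hA : IsGen A) :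
    JSm (g := g) (verFlow hA) := map_verFlow hA

theorem IsHorFlow.jsm [CompactSpace M] [T2Space M] {ξ : Fin n → ℝ} {Φ : ℝ → Fr g → Fr g}
    (h : IsHorFlow g ξ Φ) : JSm Φ := h.map

/-- **joint continuity of the derivatives of `f ∘ Φ_r`** -/
theorem continuous_dZ_comp {f : Fr g → W} (hf : SmF f) {Φ Ψ : ℝ → Fr g → Fr g} (hΦ : JSm Φ)
    (hΨ : JSm Ψ) {Z : ChField g} (hZ : IsFlow Z Ψ) :
    Continuous fun z : ℝ × Fr g => dZ Z (fun p => f (Φ z.1 p)) z.2 := by
  have h1 : ∀ (r : ℝ) (p : Fr g), dZ Z (fun p => f (Φ r p)) p =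
      deriv (fun s => f (Φ r (Ψ s p))) 0 := by
    intro r p
    have h2 := hZ.hasDerivAt (hf.comp_JSm hΦ r) p 0
    rw [hZ.zero] at h2
    exact h2.deriv.symm
  have h3 : (((frSys g).dif.prod (Dif.lin ℝ)).prod (Dif.lin ℝ)).Map (Dif.lin W)
      (fun q : (Fr g × ℝ) × ℝ => f (Φ q.1.2 (Ψ q.2 q.1.1))) := by
    intro F _ _ _ u x hu
    have h4 : (frSys g).dif.At (fun y => Ψ (u y).2 (u y).1.1) x :=
      hΨ (u := fun y => ((u y).2, (u y).1.1)) ⟨hu.2, hu.1.1⟩
    have h5 : (frSys g).dif.At (fun y => Φ (u y).1.2 (Ψ (u y).2 (u y).1.1)) x :=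
      hΦ (u := fun y => ((u y).1.2, Ψ (u y).2 (u y).1.1)) ⟨hu.1.2, h4⟩
    exact smF_iff_map.1 hf h5
  have h6 : ((frSys g).dif.prod (Dif.lin ℝ)).Map (Dif.lin W)
      (fun q : Fr g × ℝ => deriv (fun s => f (Φ q.2 (Ψ s q.1))) 0) := by
    intro F _ _ _ u x hu
    have h7 : (((frSys g).dif.prod (Dif.lin ℝ)).prod (Dif.lin ℝ)).At
        (fun y => (u y, (0 : ℝ))) x := ⟨hu, Sm.const 0 x⟩
    have h8 := Dif.map_deriv h3 h7
    exact h8
  have h9 := hasSec_frSys (g := g) |>.continuous_param h6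
  have h10 : (fun z : ℝ × Fr g => dZ Z (fun p => f (Φ z.1 p)) z.2) =
      (fun q : Fr g × ℝ => deriv (fun s => f (Φ q.2 (Ψ s q.1))) 0) ∘ Prod.swap := by
    funext z
    exact h1 z.1 z.2
  rw [h10]
  exact h9.comp continuous_swap

end Vale.Agent.P207.Q
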