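import Vale.Agent.P207.Q.FrSys2
import Vale.Agent.P207.Q.H916.Fr8
import Vale.Agent.P207.Q.H129.Trans
import Vale.Agent.P207.Q.H183.FlowS
import Vale.Agent.P207.Q.H858.TFGlue

/-!
# P207 / Q: the horizontal flows `HorFlows g`, and the structures `FlowS`, `TF` over `frCal`
(helper858)
-/

open scoped Manifold ContDiff ENNReal Topology
open Bundle MeasureTheory Set Filter Topology

noncomputable section

set_option maxSynthPendingDepth 3
set_option linter.unusedSectionVars false

namespace Vale.Agent.P207.Q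

open Vale.Agent.P255 (RMetric coefIn Gam Riem IsGeo Metric Npc ExpSys toMetric geo expg cc trans
  IsGeodesic coefL chris chrisB IsMetricOn covD)
open H413 (Idx Flows SClass Cal intL)
open Fl

section General

variable {n : ℕ} {M : Type} [TopologicalSpace M] [ChartedSpace (EV n) M]
  [IsManifold 𝓘(ℝ, EV n) ∞ M]
variable [NeZero n] [CompactSpace M] [T2Space M]

/-- **the horizontal flows of a closed manifold** -/
def horFlows (g : RMetric (EV n) M) [Nonempty (Fr g)] : HorFlows g where
  Φ := fun i => CSys.flow (horVF g (Pi.single i 1))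
  hor := fun i => isHorFlow_flow g (Pi.single i 1)
  cont := fun i => (isHorFlow_flow g (Pi.single i 1)).continuous

variable {g : RMetric (EV n) M} {W : Type} [NormedAddCommGroup W] [NormedSpace ℝ W]
variable [Nonempty (Fr g)]

theorem HorFlows.smF_comp (H : HorFlows g) (i : Fin n) (t : ℝ) {f : Fr g → W} (hf : SmF f) :
    SmF (fun p => f (H.Φ i t p)) := hf.comp_JSm (H.hor i).jsm t

end General

section Three

variable {M : Type} [TopologicalSpace M] [ChartedSpace (EV 3) M] [IsManifold 𝓘(ℝ, EV 3) ∞ M]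
variable [CompactSpace M] [T2Space M]
variable {g : RMetric (EV 3) M} [Nonempty (Fr g)] {m : Measure (UT g)} {mP : Measure (Fr g)}
  {φ : ℝ → UT g → UT g}

theorem HorFlows.hcomp (H : HorFlows g) :
    ∀ t, ∀ f : Fr g → ℝ, SmF f → SmF (fun p => f (H.Φ 0 t p)) :=
  fun t _ hf => H.smF_comp 0 t hf

theorem jsm_flw (H : HorFlows g) (k : Idx) : JSm (flw H k) := by
  cases k with
  | X => exact (H.hor 0).jsm
  | H i => exact (H.hor i.succ).jsm
  | V i => exact jsm_ver (isGenV i)
  | R => exact jsm_ver isGenR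

/-- joint continuity of the derivatives of `f ∘ Φ_r` along the six fields -/
theorem continuous_fld_comp (H : HorFlows g) {f : Fr g → ℝ} (hf : SmF f) (j k : Idx) :
    Continuous fun z : ℝ × Fr g => dZ (fld g k) (fun p => f (flw H j z.1 p)) z.2 :=
  continuous_dZ_comp hf (jsm_flw H j) (jsm_flw H k) (isFlow_flw H k)

variable (H : HorFlows g) (hP : IsMP m mP) (hφ : IsGeoFlow g φ)
  (hmp : ∀ t, MeasurePreserving (φ t) m m)
  (hcomp : ∀ t, ∀ f : Fr g → ℝ, SmF f → SmF (fun p => f (H.Φ 0 t p)))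
  (hdense : (SmFr g).topologicalClosure = ⊤) [IsProbabilityMeasure mP]

/-- `f ∘ Φ_r` as a smooth function -/
def frPull (r : ℝ) (f : SmFr g) : SmFr g :=
  ⟨(f : C(Fr g, ℝ)).comp ⟨H.Φ 0 r, H.cont_t 0 r⟩, hcomp r (fun p => (f : C(Fr g, ℝ)) p) f.2⟩

theorem frCal_Y_apply (k : Idx) (f : (frCal H hP hφ hmp hcomp hdense).S) (p : Fr g) :
    (((frCal H hP hφ hmp hcomp hdense).Y k f : (frCal H hP hφ hmp hcomp hdense).S) : C(Fr g, ℝ)) p
      = dZ (fld g k) (fun p => (f : C(Fr g, ℝ)) p) p :=
  dd_apply H hP hφ hmp hcomp hdense k f p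

theorem frCal_hasDerivAt (k : Idx) (f : (frCal H hP hφ hmp hcomp hdense).S) (p : Fr g) (t : ℝ) :
    HasDerivAt (fun s => (f : C(Fr g, ℝ)) (flw H k s p))
      ((((frCal H hP hφ hmp hcomp hdense).Y k f :
        (frCal H hP hφ hmp hcomp hdense).S) : C(Fr g, ℝ)) (flw H k t p)) t :=
  (frFlows H hP hφ hmp).hasDerivAt
    ((frClass H hP hφ hmp hcomp hdense).hasDerivAt_dd k f) p t

theorem frCal_contY (k : Idx) (f : (frCal H hP hφ hmp hcomp hdense).S) :
    Continuous fun q : ℝ × Fr g => (((frCal H hP hφ hmp hcomp hdense).Y k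
      (frPull H hcomp q.1 f) : (frCal H hP hφ hmp hcomp hdense).S) : C(Fr g, ℝ)) q.2 := by
  have h1 := continuous_fld_comp H (f := fun p => (f : C(Fr g, ℝ)) p) f.2 .X k
  refine h1.congr fun q => ?_
  exact (frCal_Y_apply H hP hφ hmp hcomp hdense k (frPull H hcomp q.1 f) q.2).symm

/-- **the geodesic frame flow acting on the smooth functions (183's structure)** -/
def frFlowS : H183.FlowS (frCal H hP hφ hmp hcomp hdense) where
  φ := H.Φ 0
  cont := H.cont 0
  zero := fun p => (isFlow_flw H .X).zero p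
  add := fun s t p => (H.hor 0).add s t p
  pull := frPull H hcomp
  pull_apply := fun _ _ _ => rfl
  contY := frCal_contY H hP hφ hmp hcomp hdense
  deriv := fun f p r => frCal_hasDerivAt H hP hφ hmp hcomp hdense .X f p r

/-- **the six flows and the smooth functions (129's structure)** -/
def frTF : Trans.TF (frCal H hP hφ hmp hcomp hdense) (flw H) where
  zero := fun k p => (isFlow_flw H k).zero p
  add := fun s t p => (H.hor 0).add s t p
  cont := fun k => (frFlows H hP hφ hmp).cont k
  deriv := fun k f p t => frCal_hasDerivAt H hP hφ hmp hcomp hdense k f p t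
  cmp := frPull H hcomp
  cmp_apply := fun _ _ _ => rfl
  jcont := frCal_contY H hP hφ hmp hcomp hdense

/-- **251's hypotheses for the frame flow** -/
theorem fr_hyp {C : H892.Curv (frCal H hP hφ hmp hcomp hdense)} (D : H413.UData _ C) {lam : ℝ}
    (hl : 0 < lam) (hpos : ∀ x a b, lam * (a ^ 2 + b ^ 2) ≤
      D.U 0 0 x * a ^ 2 + 2 * D.U 0 1 x * (a * b) + D.U 1 1 x * b ^ 2) :
    WD.Hyp D (frFlowS H hP hφ hmp hcomp hdense) lam :=
  H858.hyp_of_TF' D (frFlowS H hP hφ hmp hcomp hdense) (frTF H hP hφ hmp hcomp hdense) rfl rfl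
    hl hpos

end Three

end Vale.Agent.P207.Q
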