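import Vale.Agent.P207.Q.H916.FlipFr
import Vale.Agent.P207.Q.H665.Dense
import Vale.Agent.P207.Q.H130.Desc

/-!
# P207, n = 3: approximation by smooth `R`-invariant functions on the frame bundle
-/

open scoped Manifold ContDiff ENNReal Topology Matrix
open Bundle MeasureTheory Set Filter Topology

noncomputable section

set_option maxSynthPendingDepth 3
set_option linter.unusedSectionVars false

namespace Vale.Agent.P207.Q.WD

open Vale.Agent.P255 (RMetric)
open Vale.Agent.P207.Q.H413 (Idx Flows SClass Cal intL)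
open Vale.Agent.P207.Q.H892 (Stab mem_Stab act)
open Vale.Agent.P207.Q.H130 (low exists_desc low_orth stab_row stab_col)

variable {M : Type} [TopologicalSpace M] [ChartedSpace (EV 3) M] [IsManifold 𝓘(ℝ, EV 3) ∞ M]
variable {g : RMetric (EV 3) M} [CompactSpace M] [T2Space M]

/-- the rotations of `(e₁, e₂)` fix `e₀` -/
theorem onR_mem_Stab (θ : ℝ) : isGenR.on θ ∈ Stab 3 := by
  rw [mem_Stab]
  have h : (rotM (Brk.rot (ι := Fin 3) 2 1) θ).mulVec (Pi.single 0 1) = Pi.single 0 1 := by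
    have h1 : (Brk.rot (ι := Fin 3) 2 1).mulVec (Pi.single 0 1) = 0 := by
      ext i
      fin_cases i <;> simp [Brk.rot, Matrix.single]
    rw [rotM, Matrix.add_mulVec, Matrix.add_mulVec, Matrix.one_mulVec, Matrix.smul_mulVec,
      Matrix.smul_mulVec, ← Matrix.mulVec_mulVec, h1, Matrix.mulVec_zero, smul_zero, smul_zero,
      add_zero, add_zero]
  refine PiLp.ext fun i => ?_
  have h2 := congrFun h i
  simpa [act, IsGen.on, Pi.single_apply] using h2

section

variable {m : Measure (UT g)} {mP : Measure (Fr g)} {φ : ℝ → UT g → UT g}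
  (H : HorFlows g) (hP : IsMP m mP) (hφ : IsGeoFlow g φ)
  (hmp : ∀ t, MeasurePreserving (φ t) m m)
  (hcomp : ∀ t, ∀ f : Fr g → ℝ, SmF f → SmF (fun p => f (H.Φ 0 t p)))
  (hdense : (SmFr g).topologicalClosure = ⊤)

/-- invariant functions are killed by `R` -/
theorem YR_of_inv [IsProbabilityMeasure mP] (f : (frCal H hP hφ hmp hcomp hdense).S)
    (hf : ∀ A ∈ Stab 3, ∀ p, (f : C(Fr g, ℝ)) (Fr.rot A p) = (f : C(Fr g, ℝ)) p) :
    (frCal H hP hφ hmp hcomp hdense).Y .R f = 0 := by
  apply Subtype.ext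
  refine ContinuousMap.ext fun p => ?_
  have h1 := dd_apply H hP hφ hmp hcomp hdense .R f p
  have h2 := (isFlow_flw H .R).hasDerivAt (f := fun p => (f : C(Fr g, ℝ)) p) f.2 p 0
  rw [(isFlow_flw H .R).zero] at h2
  have h3 : (fun t => (f : C(Fr g, ℝ)) (flw H .R t p)) = fun _ => (f : C(Fr g, ℝ)) p := by
    funext t
    exact hf _ (onR_mem_Stab t) p
  rw [h3] at h2
  have h4 := h2.unique (hasDerivAt_const (0 : ℝ) ((f : C(Fr g, ℝ)) p))
  exact h1.trans h4

/-- **`Sol.app` for functions on the unit tangent bundle** -/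
theorem app_of_ut [IsProbabilityMeasure mP] {ψ : UT g → ℝ} (hψ : Integrable ψ m) {ε : ℝ}
    (hε : 0 < ε) :
    ∃ f : (frCal H hP hφ hmp hcomp hdense).S,
      (frCal H hP hφ hmp hcomp hdense).Y .R f = 0 ∧
      ∫ p, |ψ (p.ut 0) - (f : C(Fr g, ℝ)) p| ∂mP ≤ ε := by
  have : IsProbabilityMeasure m := by
    rw [← hP.ut.map_eq]
    exact Measure.isProbabilityMeasure_map hP.ut.measurable.aemeasurable
  obtain ⟨f, hf, h1, -, -, h2⟩ := H665.exists_approx (SmFr g) (fun f hf => hf) hP.ut hψ hε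
  exact ⟨⟨f, hf⟩, YR_of_inv H hP hφ hmp hcomp hdense ⟨f, hf⟩ h1, h2⟩

/-- the same for a continuous function on the frame bundle which is invariant -/
theorem app_of_inv [IsProbabilityMeasure mP] (L : C(Fr g, ℝ))
    (hL : ∀ A ∈ Stab 3, ∀ p, L (Fr.rot A p) = L p) {ε : ℝ} (hε : 0 < ε) :
    ∃ f : (frCal H hP hφ hmp hcomp hdense).S,
      (frCal H hP hφ hmp hcomp hdense).Y .R f = 0 ∧
      ∫ p, |L p - (f : C(Fr g, ℝ)) p| ∂mP ≤ ε := by
  have : IsProbabilityMeasure m := by
    rw [← hP.ut.map_eq]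
    exact Measure.isProbabilityMeasure_map hP.ut.measurable.aemeasurable
  have := compactSpace_UT g
  obtain ⟨t, ht⟩ := exists_desc (m := 2) L hL
  have hi : Integrable (fun v => t v) m :=
    t.continuous.integrable_of_hasCompactSupport (HasCompactSupport.of_compactSpace _)
  obtain ⟨f, h1, h2⟩ := app_of_ut H hP hφ hmp hcomp hdense hi hε
  refine ⟨f, h1, ?_⟩
  simpa only [ht] using h2

end

/-- the flip commutes with the rotations fixing `e₀` -/
theorem flipF_rot {A : Fr.On 3} (hA : A ∈ Stab 3) (p : Fr g) :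
    flipF (Fr.rot A p) = Fr.rot A (flipF p) := by
  unfold flipF
  rw [Fr.rot_rot, Fr.rot_rot]
  congr 1
  apply Subtype.ext
  change A.1 * flipM = flipM * A.1
  ext i j
  rw [flipM, Matrix.mul_diagonal, Matrix.diagonal_mul]
  have hr := stab_row (m := 2) hA j
  have hc := stab_col (m := 2) hA i
  refine Fin.cases ?_ (fun i' => ?_) i <;> refine Fin.cases ?_ (fun j' => ?_) j
  · simp
  · have h1 := stab_row (m := 2) hA j'.succ
    rw [if_neg (Fin.succ_ne_zero _)] at h1
    rw [h1]; simp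
  · have h1 := stab_col (m := 2) hA i'.succ
    rw [if_neg (Fin.succ_ne_zero _)] at h1
    rw [h1]; simp
  · fin_cases i' <;> fin_cases j' <;> simp

/-- `det (U + U ∘ flip)` is invariant under the rotations fixing `e₀` -/
theorem det_inv {U : Fr g → Matrix (Fin 2) (Fin 2) ℝ}
    (hU : ∀ A ∈ Stab 3, ∀ p, U (Fr.rot A p) = (low A)ᵀ * U p * low A)
    {A : Fr.On 3} (hA : A ∈ Stab 3) (p : Fr g) :
    (U (Fr.rot A p) + U (flipF (Fr.rot A p))).det = (U p + U (flipF p)).det := by
  rw [flipF_rot hA, hU A hA, hU A hA, ← Matrix.add_mul, ← Matrix.mul_add, Matrix.det_mul,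
    Matrix.det_mul]
  have h1 : (low A)ᵀ.det * (low A).det = 1 := by
    rw [← Matrix.det_mul, low_orth (m := 2) hA, Matrix.det_one]
  calc (low A)ᵀ.det * (U p + U (flipF p)).det * (low A).det =
      ((low A)ᵀ.det * (low A).det) * (U p + U (flipF p)).det := by ring
    _ = _ := by rw [h1, one_mul]

end Vale.Agent.P207.Q.WD
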