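import Vale.Agent.P207.Q.SolFr
import Vale.Agent.P207.Q.FrSys3
import Vale.Agent.P207.Q.H222.WD4

/-!
# P207, n = 3: the weak derivatives of the transfer function on the frame bundle
-/

open scoped Manifold ContDiff ENNReal Topology Matrix
open Bundle MeasureTheory Set Filter Topology

noncomputable section

set_option maxSynthPendingDepth 3
set_option linter.unusedSectionVars false

namespace Vale.Agent.P207.Q.WD

open Vale.Agent.P255 (RMetric)
open Vale.Agent.P207.Q.H413 (Idx Flows SClass Cal intL psiL UData PsiData WX)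
open Vale.Agent.P207.Q.H892 (Stab mem_Stab act Curv)
open Vale.Agent.P207.Q.H130 (low exists_desc low_orth stab_row stab_col IsUR Km)

variable {M : Type} [TopologicalSpace M] [ChartedSpace (EV 3) M] [IsManifold 𝓘(ℝ, EV 3) ∞ M]
variable {g : RMetric (EV 3) M} [CompactSpace M] [T2Space M]

variable {m : Measure (UT g)} {mP : Measure (Fr g)} {φ : ℝ → UT g → UT g}
  (H : HorFlows g) (hP : IsMP m mP) (hφ : IsGeoFlow g φ)
  (hmp : ∀ t, MeasurePreserving (φ t) m m)
  (hcomp : ∀ t, ∀ f : Fr g → ℝ, SmF f → SmF (fun p => f (H.Φ 0 t p)))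
  (hdense : (SmFr g).topologicalClosure = ⊤) [IsProbabilityMeasure mP]

/-- the product rule along the flow -/
theorem fr_wpx (G G' : C(Fr g, ℝ)) (h : WX (frCal H hP hφ hmp hcomp hdense) G G') :
    intL mP (G * G') = 0 :=
  (frClass H hP hφ hmp hcomp hdense).wpx G G' h

include hP hφ hmp in
/-- the frame flow as a measure preserving flow -/
theorem fr_mflow : MFlow mP (H.Φ 0) := (frFlows H hP hφ hmp).mflow .X

variable [Nonempty (Fr g)]
variable {C : Curv (frCal H hP hφ hmp hcomp hdense)} (D : UData (frCal H hP hφ hmp hcomp hdense) C)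

/-- the unstable tensor as a matrix -/
def Um (p : Fr g) : Matrix (Fin 2) (Fin 2) ℝ := fun i j => D.U i j p

/-- the unstable tensor is a Riccati solution in the sense of `IsUR` -/
theorem isUR (hK : ∀ i j x, C.K i j x = Km g x i j) {lam : ℝ} (hl : 0 < lam)
    (hpos : ∀ x a b, lam * (a ^ 2 + b ^ 2) ≤
      D.U 0 0 x * a ^ 2 + 2 * D.U 0 1 x * (a * b) + D.U 1 1 x * b ^ 2) :
    IsUR (H.Φ 0) lam (∑ i, ∑ j, ‖D.U i j‖) (Um H hP hφ hmp hcomp hdense D) where
  pos := hl
  lo f x := by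
    have h := hpos f (x 0) (x 1)
    have e : D.U 1 0 f = D.U 0 1 f := by rw [D.symU]
    simp only [dotProduct, Matrix.mulVec, Fin.sum_univ_two, Um, e]
    linarith
  bd f i j := by
    refine ((D.U i j).norm_coe_le_norm f).trans ?_
    refine (Finset.single_le_sum (f := fun j => ‖D.U i j‖) (fun _ _ => norm_nonneg _)
      (Finset.mem_univ j)).trans ?_
    exact Finset.single_le_sum (f := fun i => ∑ j, ‖D.U i j‖)
      (fun _ _ => Finset.sum_nonneg fun _ _ => norm_nonneg _) (Finset.mem_univ i)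
  ric f r i j := by
    have h := jet_hasDerivAt (frFlowS H hP hφ hmp hcomp hdense) (D.jU i j) f r
    refine h.congr_deriv ?_
    rw [D.ric]
    simp only [ContinuousMap.sub_apply, hK, Matrix.mul_apply, Fin.sum_univ_two,
      ContinuousMap.add_apply, ContinuousMap.mul_apply, Um]
    rfl

/-- `t = tr U` is a function on the unit tangent bundle -/
theorem exists_t (hK : ∀ i j x, C.K i j x = Km g x i j) {lam : ℝ} (hl : 0 < lam)
    (hpos : ∀ x a b, lam * (a ^ 2 + b ^ 2) ≤
      D.U 0 0 x * a ^ 2 + 2 * D.U 0 1 x * (a * b) + D.U 1 1 x * b ^ 2) :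
    ∃ t : C(UT g, ℝ), ∀ f : Fr g, t (f.ut 0) = tt D f := by
  obtain ⟨t, ht, -⟩ := (isUR H hP hφ hmp hcomp hdense D hK hl hpos).exists_t (H.hor 0)
    (fun i => (D.U i i).continuous) hφ
  refine ⟨t, fun f => (ht f).trans ?_⟩
  simp [Matrix.trace, Um, tt, Fin.sum_univ_two]

/-- **Block R7 on the frame bundle.** -/
theorem fr_psiData (hK : ∀ i j x, C.K i j x = Km g x i j)
    (hKσ : ∀ i j x, C.K i j (flipF x) = C.K i j x) {lam : ℝ} (hl : 0 < lam)
    (hpos : ∀ x a b, lam * (a ^ 2 + b ^ 2) ≤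
      D.U 0 0 x * a ^ 2 + 2 * D.U 0 1 x * (a * b) + D.U 1 1 x * b ^ 2)
    {ψ : UT g → ℝ} {h : ℝ} (hψm : Measurable fun f : Fr g => ψ (f.ut 0))
    (hψi : Integrable ψ m) (hψi' : Integrable (fun f : Fr g => ψ (f.ut 0)) mP)
    (hcoc : ∀ T, ∀ᵐ f ∂mP, ψ ((H.Φ 0 T f).ut 0) - ψ (f.ut 0) =
      WW (H.Φ 0) (fun f => tt D f - h) T f) :
    Nonempty (PsiData D (psiL mP (fun f => ψ (f.ut 0)) hψi') h) := by
  have := hP.openPos
  set F := frFlowS H hP hφ hmp hcomp hdense with hF
  have hH : Hyp D F lam := fr_hyp H hP hφ hmp hcomp hdense D hl hpos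
  set σ : Flip F := flipFr H hP hφ hmp hcomp hdense F (fun _ _ => rfl) with hσ
  have hrot := fun A hA f => (isUR H hP hφ hmp hcomp hdense D hK hl hpos).rot (H.hor 0)
    (A := A) hA f
  have hSol : Sol D F h (fun f => ψ (f.ut 0)) :=
    { meas := hψm
      int := hψi'
      coc := hcoc
      app := fun ε hε => app_of_ut H hP hφ hmp hcomp hdense hψi hε }
  refine exists_psiData hH (fr_mflow H hP hφ hmp) (fr_wpx H hP hφ hmp hcomp hdense) σ hKσ hSol ?_
  intro L hL ε hε
  refine app_of_inv H hP hφ hmp hcomp hdense L (fun A hA p => ?_) hε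
  have h1 := det_inv hrot hA p
  rw [hL, hL]
  have e : ∀ p : Fr g, σ.SS D 0 0 p * σ.SS D 1 1 p - σ.SS D 0 1 p * σ.SS D 0 1 p =
      (Um H hP hφ hmp hcomp hdense D p + Um H hP hφ hmp hcomp hdense D (flipF p)).det := by
    intro p
    rw [Matrix.det_fin_two]
    have e1 : D.U 1 0 p = D.U 0 1 p := by rw [D.symU]
    have e2 : D.U 1 0 (flipF p) = D.U 0 1 (flipF p) := by rw [D.symU]
    simp only [Flip.SS_apply, Matrix.add_apply, Um, e1, e2]
    rfl
  rw [e, e, h1]

end Vale.Agent.P207.Q.WD
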