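import Vale.Agent.P207.BlkC1
import Vale.Agent.P207.Rays

/-!
# P207, strict quarter pinching, block C2 (Ruelle's inequality), part A: the sets of the endpoints
of the geodesics near a given homotopy class
-/

open scoped Manifold ContDiff ENNReal Topology unitInterval
open Bundle MeasureTheory Set Filter

noncomputable section

namespace Vale.Agent.P207

open Vale.Agent.P255 (RMetric coefIn Gam Riem IsGeo Metric Npc ExpSys toMetric geo expg)

namespace Q

section Near

variable {E M : Type} [NormedAddCommGroup E] [NormedSpace ℝ E] [TopologicalSpace M]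
  (S : ExpSys E M)

/-- the class of the geodesic with initial vector `v` -/
def rc (c : M) (v : E) : Cl c (S.e c v) := Path.Homotopic.Quotient.mk (S.rayTo c (S.e c v) v rfl)

theorem vec_rc (c : M) (v : E) : S.vec (rc S c v) = v := S.vec_rayTo _ _ _ _

theorem len_rc (c : M) (v : E) : S.len (rc S c v) = S.nrm c v := by
  rw [ExpSys.len, vec_rc]

/-- the transition map between the tangent spaces given by a homotopy class is continuous -/
theorem continuous_trans_rc {c d : M} (α : Cl c d) :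
    Continuous fun v : E => S.vec (α.symm.trans (rc S c v)) := by
  have hcov := S.cov d
  obtain ⟨F, ⟨hF0, hF⟩, -⟩ := hcov.existsUnique_continuousMap_lifts
    (⟨S.e c, (S.cov c).continuous⟩ : C(E, M)) 0 (S.vec α.symm) (by
      rw [S.e_vec]
      exact (S.zero c).symm)
  have key : ∀ v : E, S.vec (α.symm.trans (rc S c v)) = F v := by
    intro v
    unfold rc
    rw [S.vec_trans α.symm (S.rayTo c (S.e c v) v rfl)
      ⟨fun t : I => F ((t : ℝ) • v), by fun_prop⟩ (by simp [hF0]) (by
        intro t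
        rw [ExpSys.rayTo_apply]
        exact congrFun hF ((t : ℝ) • v))]
    simp
  simp only [key]
  exact F.continuous

/-- the vectors at `c` whose geodesic is homotopic to `ρ`, up to a class of length `< η` -/
def nearSet (ρ : Σ p : M × M, Cl p.1 p.2) (η : ℝ) : Set E :=
  {v | S.len (ρ.2.symm.trans (rc S ρ.1.1 v)) < η}

theorem isOpen_nearSet (ρ : Σ p : M × M, Cl p.1 p.2) (η : ℝ) : IsOpen (nearSet S ρ η) :=
  isOpen_lt ((C1.continuous_nrm S _).comp (continuous_trans_rc S ρ.2)) continuous_const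

theorem nearSet_eq {ρ₁ ρ₂ : Σ p : M × M, Cl p.1 p.2} {η sy : ℝ} (hη : 2 * η ≤ sy)
    (hsy : ∀ (x : M) (α : Cl x x), S.len α < sy → α = Path.Homotopic.Quotient.refl x)
    (h : ρ₁.1 = ρ₂.1) {v : E} (h₁ : v ∈ nearSet S ρ₁ η) (h₂ : v ∈ nearSet S ρ₂ η) : ρ₁ = ρ₂ := by
  obtain ⟨p, α⟩ := ρ₁
  obtain ⟨q, β⟩ := ρ₂
  dsimp only at h
  subst h
  congr 1
  have h₁ : S.len (α.symm.trans (rc S p.1 v)) < η := h₁
  have h₂ : S.len (β.symm.trans (rc S p.1 v)) < η := h₂
  have h3 : (α.symm.trans (rc S p.1 v)).trans (β.symm.trans (rc S p.1 v)).symm =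
      α.symm.trans β := by
    rw [ExpSys.symm_trans', ExpSys.symm_symm', Path.Homotopic.Quotient.trans_assoc,
      trans_symm_cancel]
  have h4 : S.len (α.symm.trans β) < sy := by
    rw [← h3]
    refine (S.len_trans _ _).trans_lt ?_
    rw [S.len_symm]
    linarith
  have h5 := hsy _ _ h4
  calc α = α.trans (α.symm.trans β) := by rw [h5, Path.Homotopic.Quotient.trans_refl]
    _ = β := trans_symm_cancel α β

theorem abs_nrm_sub_lt {ρ : Σ p : M × M, Cl p.1 p.2} {η : ℝ} {v : E} (h : v ∈ nearSet S ρ η) :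
    |S.nrm ρ.1.1 v - S.len ρ.2| < η := by
  have h : S.len (ρ.2.symm.trans (rc S ρ.1.1 v)) < η := h
  have h1 := S.len_trans ρ.2 (ρ.2.symm.trans (rc S ρ.1.1 v))
  rw [trans_symm_cancel, len_rc] at h1
  have h2 := S.len_trans (rc S ρ.1.1 v) (ρ.2.symm.trans (rc S ρ.1.1 v)).symm
  rw [S.len_symm, ExpSys.symm_trans', ExpSys.symm_symm', trans_symm_cancel, len_rc] at h2
  rw [abs_lt]
  constructor <;> linarith

theorem exists_mem_nearSet {ρ : Σ p : M × M, Cl p.1 p.2} {η : ℝ} {z : M}
    (hz : z ∈ C1.nb S ρ.1.2 η) : ∃ v ∈ nearSet S ρ η, S.e ρ.1.1 v = z := by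
  obtain ⟨δ, hδ⟩ := hz
  obtain ⟨p, α⟩ := ρ
  dsimp only at δ hδ ⊢
  have hv : S.e p.1 (S.vec (α.trans δ)) = z := S.e_vec _
  refine ⟨S.vec (α.trans δ), ?_, hv⟩
  change S.len (α.symm.trans (rc S p.1 (S.vec (α.trans δ)))) < η
  have key : ∀ (w : E) (z : M) (hz : S.e p.1 w = z) (β : Cl p.1 z), S.vec β = w →
      S.len (α.symm.trans (rc S p.1 w)) = S.len (α.symm.trans β) := by
    intro w z hz β hβ
    subst hz
    rw [S.vec_inj ((vec_rc S p.1 w).trans hβ.symm)]
  rw [key _ z hv (α.trans δ) rfl, symm_trans_cancel]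
  exact hδ

/-- the class from a point of a geodesic to another point of it -/
theorem len_symm_trans_of_vec {x y z : M} (γ : Cl x y) (β : Cl x z) {v : E} {s T : ℝ}
    (hγ : S.vec γ = T • v) (hβ : S.vec β = s • v) :
    S.len (γ.symm.trans β) = |s - T| * S.nrm x v := by
  obtain rfl : S.e x (T • v) = y := by rw [← hγ]; exact S.e_vec γ
  have h1 : γ = ray S x v T := S.vec_inj (hγ.trans (vec_ray S x v T).symm)
  rw [h1]
  exact len_ray_symm_trans S β hβ T

theorem abs_len_conj {a b x y : M} (α : Cl a x) (γ : Cl x y) (β : Cl b y) :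
    |S.len ((α.trans γ).trans β.symm) - S.len γ| ≤ S.len α + S.len β := by
  have h1 := S.len_trans (α.trans γ) β.symm
  have h2 := S.len_trans α γ
  have e : α.symm.trans (((α.trans γ).trans β.symm).trans β) = γ := by
    rw [C1.trans_cancel_right, symm_trans_cancel]
  have h3 := S.len_trans α.symm (((α.trans γ).trans β.symm).trans β)
  have h4 := S.len_trans ((α.trans γ).trans β.symm) β
  rw [e] at h3
  rw [S.len_symm] at h1 h3
  rw [abs_le]
  constructor <;> linarith

end Near

end Q

end Vale.Agent.P207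
end
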