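import Vale.Agent.P207.Q.RuelleA
import Vale.Agent.P207.BlkG3
import Vale.Agent.P207.BlkDG
import Vale.Agent.P207.BlkDB

/-!
# P207, strict quarter pinching, block C2 (Ruelle's inequality), part B: orbits near an orbit
-/

open scoped Manifold ContDiff ENNReal Topology
open Bundle MeasureTheory Set Filter

noncomputable section

namespace Vale.Agent.P207

open Vale.Agent.P255 (RMetric coefIn Gam Riem IsGeo Metric Npc ExpSys toMetric geo expg)

namespace Q

variable {n : ℕ} {M : Type} [TopologicalSpace M] [ChartedSpace (EV n) M]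
  [IsManifold 𝓘(ℝ, EV n) ∞ M] [CompactSpace M] [T2Space M]
  {g : RMetric (EV n) M} {φ : ℝ → UT g → UT g}

/-- the cell of an orbit segment of length `N` -/
def cellOf (hφ : IsGeoFlow g φ) (h : Npc (mt g)) (c : M → M) (τ : ∀ x, Cl (c x) x) (N : ℕ)
    (x : UT g) : Σ p : M × M, Cl p.1 p.2 :=
  ⟨(c x.pt, c (φ N x).pt), ((τ x.pt).trans (seg hφ h x N)).trans (τ (φ N x).pt).symm⟩

theorem nrm_vec (h : Npc (mt g)) (x : UT g) : (sys g h).nrm x.pt (x.vec : EV n) = 1 := by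
  have h2 : (mt g).ip x.pt (x.vec : EV n) (x.vec : EV n) = 1 := (ip_eq g _ _ _).trans x.2
  change Real.sqrt ((mt g).ip x.pt (x.vec : EV n) (x.vec : EV n)) = 1
  rw [h2, Real.sqrt_one]

theorem len_seg (hφ : IsGeoFlow g φ) (h : Npc (mt g)) (x : UT g) (N : ℕ) :
    (sys g h).len (seg hφ h x N) = N := by
  have h0 : (sys g h).len (seg hφ h x N) = (sys g h).nrm x.pt ((N : ℝ) • (x.vec : EV n)) := by
    rw [ExpSys.len, vec_seg]
  have h1 : (sys g h).nrm x.pt ((N : ℝ) • (x.vec : EV n)) =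
      |(N : ℝ)| * (sys g h).nrm x.pt (x.vec : EV n) := C1.nrm_smul (sys g h) _ _ _
  rw [h0, h1, nrm_vec h x, mul_one, Nat.abs_cast]

/-- the length of a vector near a cell -/
theorem abs_sub_lt (hφ : IsGeoFlow g φ) (h : Npc (mt g)) {κ η : ℝ} {c : M → M}
    {τ : ∀ x, Cl (c x) x} (hτ : ∀ x, (sys g h).len (τ x) < κ / 8) (hη : η ≤ κ / 8) (N : ℕ)
    (x : UT g) {v : EV n} (hv : v ∈ nearSet (sys g h) (cellOf hφ h c τ N x) η) :
    |nm g (c x.pt) v - N| < 3 * κ / 8 := by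
  have h0 : nm g (c x.pt) v = (sys g h).nrm (c x.pt) v := rfl
  have h1 := abs_nrm_sub_lt (sys g h) hv
  dsimp only [cellOf] at h1
  rw [h0]
  have h2 := abs_len_conj (sys g h) (τ x.pt) (seg hφ h x N) (τ (φ N x).pt)
  rw [len_seg] at h2
  have h6 := hτ x.pt
  have h7 := hτ (φ N x).pt
  rw [abs_lt] at h1 ⊢
  rw [abs_le] at h2
  constructor <;> linarith [h1.1, h1.2, h2.1, h2.2]

/-- the orbit of a direction near a cell is near the orbit of the point of the cell -/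
theorem near_orbit (hφ : IsGeoFlow g φ) (h : Npc (mt g)) {κ η : ℝ} (hκ : 0 < κ) {c : M → M}
    {τ : ∀ x, Cl (c x) x} (hτ : ∀ x, (sys g h).len (τ x) < κ / 8) (hη : η ≤ κ / 8) (N : ℕ)
    (x : UT g) {w₀ : EV n} (hw₀ : (mt g).ip (c x.pt) w₀ w₀ = 1) {r : ℝ} (hr : 0 ≤ r)
    (hv : r • w₀ ∈ nearSet (sys g h) (cellOf hφ h c τ N x) η) {t : ℝ} (ht0 : 0 ≤ t)
    (ht : t ≤ N) :
    ∃ δ : Cl (φ t (mkUT g (c x.pt) w₀ hw₀)).pt (φ t x).pt, (sys g h).len δ ≤ κ := by
  set w : UT g := mkUT g (c x.pt) w₀ hw₀ with hw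
  have hnw : (sys g h).nrm (c x.pt) w₀ = 1 := by
    change Real.sqrt ((mt g).ip (c x.pt) w₀ w₀) = 1
    rw [hw₀, Real.sqrt_one]
  have hrN := abs_sub_lt hφ h hτ hη N x hv
  have hnr : nm g (c x.pt) (r • w₀) = r := by
    have h1 : nm g (c x.pt) (r • w₀) = |r| * (sys g h).nrm (c x.pt) w₀ :=
      C1.nrm_smul (sys g h) _ _ _
    rw [h1, hnw, mul_one, abs_of_nonneg hr]
  rw [hnr] at hrN
  set α : Cl w.pt x.pt := τ x.pt with hα
  set γw : Cl w.pt (φ N w).pt := seg hφ h w N with hγw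
  set γx : Cl x.pt (φ N x).pt := seg hφ h x N with hγx
  set ρ := τ (φ N x).pt with hρ
  set R : Cl w.pt ((sys g h).e (c x.pt) (r • w₀)) := rc (sys g h) (c x.pt) (r • w₀) with hR
  set K : Cl w.pt (c (φ N x).pt) := (α.trans γx).trans ρ.symm with hK
  have hKR : (sys g h).len (K.symm.trans R) < η := hv
  set β : Cl (φ N w).pt (φ N x).pt := (γw.symm.trans α).trans γx with hβ
  have e : β = (γw.symm.trans R).trans ((K.symm.trans R).symm.trans ρ) := by
    rw [ExpSys.symm_trans', ExpSys.symm_symm', Path.Homotopic.Quotient.trans_assoc,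
      Path.Homotopic.Quotient.trans_assoc, trans_symm_cancel, hK, trans_symm_cancel_right, hβ,
      Path.Homotopic.Quotient.trans_assoc]
  have h1 : (sys g h).len (γw.symm.trans R) = |r - N| * (sys g h).nrm (c x.pt) w₀ :=
    len_symm_trans_of_vec (sys g h) γw R (v := w₀) (s := r) (T := N) (vec_seg hφ h w N)
      (vec_rc (sys g h) _ _)
  rw [hnw, mul_one] at h1
  have h2 : (sys g h).len β ≤ κ := by
    rw [e]
    have h3 := (sys g h).len_trans (γw.symm.trans R) ((K.symm.trans R).symm.trans ρ)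
    have h4 := (sys g h).len_trans (K.symm.trans R).symm ρ
    rw [(sys g h).len_symm] at h4
    have h5 : (sys g h).len ρ < κ / 8 := hτ _
    linarith
  have h3 : (sys g h).len α ≤ κ := by
    have := hτ x.pt
    change (sys g h).len (τ x.pt) ≤ κ
    linarith
  refine dist_le_of_endpoints hφ h (Nat.cast_nonneg N) α β h3 h2 γw γx (vec_seg hφ h w N)
    (vec_seg hφ h x N) ?_ ht0 ht
  rw [hβ, Path.Homotopic.Quotient.trans_assoc, trans_symm_cancel]

/-- the Jacobian of the exponential map near a cell -/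
theorem jac_near (hφ : IsGeoFlow g φ) (h : Npc (mt g)) {κ η : ℝ} (hκ : 0 < κ) (hκ1 : κ ≤ 1)
    {c : M → M} {τ : ∀ x, Cl (c x) x} (hτ : ∀ x, (sys g h).len (τ x) < κ / 8) (hη : η ≤ κ / 8)
    {t : UT g → ℝ} (ht : Continuous t) {T₀ : ℝ} (hT : ∀ p, |t p| ≤ T₀) {e : ℝ} (he : 0 < e)
    (hnear : ∀ p q : UT g, (∀ s ∈ Icc (0 : ℝ) 1, ∃ δ : Cl (φ s p).pt (φ s q).pt,
      (sys g h).len δ ≤ κ) → |t p - t q| ≤ e)
    {C : ℝ} (hC : 0 ≤ C) (hj : ∀ (p : UT g) (r : ℝ), 0 ≤ r → jac g p.pt (r • (p.vec : EV n)) ≤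
      C * dens0 g p.pt * Real.exp ((∫ s in (0 : ℝ)..r, t (φ s p)) + e * r))
    {N : ℕ} (hN : 1 ≤ N) (x : UT g) {v : EV n}
    (hv : v ∈ nearSet (sys g h) (cellOf hφ h c τ N x) η) :
    jac g (c x.pt) v ≤ C * dens0 g (c x.pt) *
      Real.exp ((∫ s in (0 : ℝ)..N, t (φ s x)) + 2 * e * N + 3 * T₀ + e) := by
  have hN1 : (1 : ℝ) ≤ N := by exact_mod_cast hN
  have hrN := abs_sub_lt hφ h hτ hη N x hv
  set r := nm g (c x.pt) v with hr
  rw [abs_lt] at hrN
  have hr1 : (N : ℝ) - 1 ≤ r := by linarith [hrN.1]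
  have hr2 : r ≤ N + 1 := by linarith [hrN.2]
  have hr0 : 0 < r := by linarith [hrN.1]
  set w₀ : EV n := r⁻¹ • v with hw₀
  have hv' : r • w₀ = v := smul_inv_smul₀ hr0.ne' v
  have hw1 : (mt g).ip (c x.pt) w₀ w₀ = 1 := by
    have h1 : (mt g).ip (c x.pt) v v = r ^ 2 := ((sys g h).nrm_sq (c x.pt) v).symm
    simp only [hw₀, map_smul, smul_apply, smul_eq_mul, h1]
    field_simp
  set w : UT g := mkUT g (c x.pt) w₀ hw1 with hw
  have hvw : r • (w.vec : EV n) = v := hv'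
  have hT0 : 0 ≤ T₀ := (abs_nonneg _).trans (hT x)
  have h1 := hj w r hr0.le
  rw [hvw] at h1
  refine h1.trans ?_
  have hd : 0 ≤ dens0 g (c x.pt) := Real.sqrt_nonneg _
  refine mul_le_mul_of_nonneg_left (Real.exp_le_exp.2 ?_) (mul_nonneg hC hd)
  have hcont : ∀ p : UT g, Continuous fun s : ℝ => t (φ s p) := fun p =>
    ht.comp (hφ.continuous_left p)
  have hii : ∀ (p : UT g) (a b : ℝ), IntervalIntegrable (fun s : ℝ => t (φ s p)) volume a b :=
    fun p a b => (hcont p).intervalIntegrable _ _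
  -- the common part
  have h2 : ∫ s in (0 : ℝ)..(N - 1), t (φ s w) ≤
      (∫ s in (0 : ℝ)..(N - 1), t (φ s x)) + e * (N - 1) := by
    have h3 : ∫ s in (0 : ℝ)..(N - 1 : ℝ), t (φ s w) ≤
        ∫ s in (0 : ℝ)..(N - 1 : ℝ), (t (φ s x) + e) := by
      refine intervalIntegral.integral_mono_on (by linarith) (hii _ _ _)
        ((hii _ _ _).add intervalIntegrable_const) fun s hs => ?_
      have h4 := hnear (φ s w) (φ s x) (fun u hu => by
        have h5 := near_orbit hφ h hκ hτ hη N x hw1 hr0.le (by rw [hv']; exact hv)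
          (t := u + s) (by linarith [hu.1, hs.1]) (by linarith [hu.2, hs.2])
        rw [hφ.add, hφ.add] at h5
        exact h5)
      have := (abs_le.1 h4).2
      linarith
    rw [intervalIntegral.integral_add (hii _ _ _) intervalIntegrable_const,
      intervalIntegral.integral_const, sub_zero, smul_eq_mul] at h3
    linarith
  -- the ends
  have h5 : ∫ s in (N - 1 : ℝ)..r, t (φ s w) ≤ 2 * T₀ := by
    have h6 := intervalIntegral.norm_integral_le_of_norm_le_const (a := (N - 1 : ℝ)) (b := r)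
      (f := fun s => t (φ s w)) (C := T₀) fun s _ => hT _
    rw [Real.norm_eq_abs, abs_of_nonneg (show 0 ≤ r - (N - 1 : ℝ) by linarith)] at h6
    have h7 := (abs_le.1 h6).2
    nlinarith
  have h6 : -T₀ ≤ ∫ s in (N - 1 : ℝ)..N, t (φ s x) := by
    have h6 := intervalIntegral.norm_integral_le_of_norm_le_const (a := (N - 1 : ℝ)) (b := N)
      (f := fun s => t (φ s x)) (C := T₀) fun s _ => hT _
    rw [Real.norm_eq_abs, show (N : ℝ) - (N - 1) = 1 by ring, abs_one, mul_one] at h6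
    exact (abs_le.1 h6).1
  have h7 : ∫ s in (0 : ℝ)..r, t (φ s w) =
      (∫ s in (0 : ℝ)..(N - 1 : ℝ), t (φ s w)) + ∫ s in (N - 1 : ℝ)..r, t (φ s w) :=
    (intervalIntegral.integral_add_adjacent_intervals (hii _ _ _) (hii _ _ _)).symm
  have h8 : ∫ s in (0 : ℝ)..N, t (φ s x) =
      (∫ s in (0 : ℝ)..(N - 1 : ℝ), t (φ s x)) + ∫ s in (N - 1 : ℝ)..N, t (φ s x) :=
    (intervalIntegral.integral_add_adjacent_intervals (hii _ _ _) (hii _ _ _)).symm
  rw [h7, h8]
  nlinarith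

end Q

end Vale.Agent.P207
end
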